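import Vale.Agent.P050.Tmpl.Plus
import Vale.Agent.P050.Join.Two

/-!
Bipartite graphs with two vertices that have exactly one non-neighbour each.
-/

set_option linter.unusedSectionVars false

namespace Vale.Agent.P050.Tmpl

open Finset Vale.Agent.P050.Lev Vale.Agent.P050.Cart Vale.Agent.P050.Join

variable {V : Type} [Fintype V] [DecidableEq V] {H : SimpleGraph V} {s : V → Bool}

/-- exchange of the colours -/
theorem GSid.flip (h : GSid H s) : GSid H (fun v => !s v) := by
  classical
  refine ⟨fun u v huv => by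
    have := h.1 u v huv
    cases h1 : s u <;> cases h2 : s v <;> simp_all, ?_⟩
  have e : (sideEdges H fun v => !s v) = (sideEdges H s).image Prod.swap := by
    ext ⟨u, v⟩
    simp only [sideEdges, Finset.mem_filter, Finset.mem_univ, true_and, Finset.mem_image,
      Bool.not_eq_false', Bool.not_eq_true']
    constructor
    · rintro ⟨h1, h2, h3⟩
      exact ⟨(v, u), ⟨h1.symm, h3, h2⟩, rfl⟩
    · rintro ⟨⟨a, b⟩, ⟨h1, h2, h3⟩, h4⟩
      simp only [Prod.swap_prod_mk, Prod.mk.injEq] at h4
      obtain ⟨rfl, rfl⟩ := h4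
      exact ⟨h1.symm, h3, h2⟩
  rw [e]
  have hc : ((sideEdges H s).image Prod.swap).card = (sideEdges H s).card :=
    Finset.card_image_of_injective _ Prod.swap_injective
  refine ⟨?_, ?_⟩
  · intro e he
    rw [Finset.mem_image] at he
    obtain ⟨e', he', rfl⟩ := he
    have := h.2.1 e' he'
    simp [this.1, this.2]
  · intro U _ m W m0 m1 hW
    have key := h.2.2 U (fun b => m (!b)) (fun x y => W y x) (fun b x => m0 _ _) (fun b => m1 _)
      (fun x y => hW _ _)
    rw [hc]
    have e1 : ∑ x, ∑ y, m false x * m true y * W x y =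
        ∑ x, ∑ y, m (!false) x * m (!true) y * W y x := by
      rw [Finset.sum_comm]
      refine Finset.sum_congr rfl fun x _ => Finset.sum_congr rfl fun y _ => ?_
      simp only [Bool.not_false, Bool.not_true]
      ring
    rw [e1]
    refine key.trans (le_of_eq ?_)
    refine Finset.sum_congr rfl fun z _ => ?_
    congr 1
    rw [Finset.prod_image fun x _ y _ hxy => Prod.swap_injective hxy]
    rfl

/-- **Two vertices with one non-neighbour each**, on the side `true`. -/
theorem two_almost' (hs : ∀ u v, H.Adj u v → s u ≠ s v) {a₁ a₂ b₁ b₂ : V} (ha : a₁ ≠ a₂)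
    (hb : b₁ ≠ b₂) (sa₁ : s a₁ = false) (sa₂ : s a₂ = false) (sb₁ : s b₁ = true)
    (sb₂ : s b₂ = true) (h₃ : ∀ u, s u = false → (H.Adj u b₁ ↔ u ≠ a₁))
    (h₄ : ∀ u, s u = false → (H.Adj u b₂ ↔ u ≠ a₂)) : GSid H s := by
  classical
  let C : Finset V := {a₁, a₂, b₁, b₂}
  have hC : ∀ x, x ∈ C ↔ x = a₁ ∨ x = a₂ ∨ x = b₁ ∨ x = b₂ := by
    intro x
    simp [C]
  let f : Bool × Bool → V := fun p => if p.2 then (if p.1 then b₁ else b₂) else
    (if p.1 then a₂ else a₁)
  have fC : ∀ p, f p ∈ C := by
    intro p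
    rw [hC]
    rcases p with ⟨_ | _, _ | _⟩ <;> simp [f]
  have hab : ∀ {x y}, s x = false → s y = true → x ≠ y := by
    intro x y h h' h''
    rw [h'', h'] at h
    exact absurd h (by decide)
  have finj : Function.Injective f := by
    rintro ⟨_ | _, _ | _⟩ ⟨_ | _, _ | _⟩ h <;> simp only [f, Bool.false_eq_true, if_true, if_false] at h
    all_goals first
      | rfl
      | exact absurd h ha
      | exact absurd h ha.symm
      | exact absurd h hb
      | exact absurd h hb.symm
      | exact absurd h (hab sa₁ sb₁)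
      | exact absurd h (hab sa₁ sb₂)
      | exact absurd h (hab sa₂ sb₁)
      | exact absurd h (hab sa₂ sb₂)
      | exact absurd h.symm (hab sa₁ sb₁)
      | exact absurd h.symm (hab sa₁ sb₂)
      | exact absurd h.symm (hab sa₂ sb₁)
      | exact absurd h.symm (hab sa₂ sb₂)
  let φ : Bool × Bool ≃ (C : Set V) :=
    Equiv.ofBijective (fun p => ⟨f p, fC p⟩) ⟨fun a b h => finj (congrArg Subtype.val h), by
      rintro ⟨x, hx⟩
      rcases (hC x).1 hx with rfl | rfl | rfl | rfl
      · exact ⟨(false, false), rfl⟩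
      · exact ⟨(true, false), rfl⟩
      · exact ⟨(true, true), rfl⟩
      · exact ⟨(false, true), rfl⟩⟩
  have hφ : ∀ p, (φ p : V) = f p := fun p => rfl
  have hside : ∀ p, s (φ p : V) = p.2 := by
    rintro ⟨_ | _, _ | _⟩
    · exact sa₁
    · exact sb₂
    · exact sa₂
    · exact sb₁
  have n1 : ¬ H.Adj a₁ b₁ := fun h => ((h₃ a₁ sa₁).1 h) rfl
  have n2 : ¬ H.Adj a₂ b₂ := fun h => ((h₄ a₂ sa₂).1 h) rfl
  have e1 : H.Adj a₁ b₂ := (h₄ a₁ sa₁).2 ha
  have e2 : H.Adj a₂ b₁ := (h₃ a₂ sa₂).2 ha.symm
  have hg : GSid (H.induce (C : Set V)) (fun v => s (v : V)) := by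
    refine ⟨fun u v h => hs _ _ h, KSid.transport φ (ksid_match Bool) ?_ hside⟩
    intro p q
    simp only [sideEdges, Finset.mem_filter, Finset.mem_univ, true_and,
      SimpleGraph.comap_adj, Function.Embedding.subtype_apply, hφ, matchE, Finset.mem_image]
    rcases p with ⟨_ | _, _ | _⟩ <;> rcases q with ⟨_ | _, _ | _⟩ <;>
      simp [f, n1, n2, e1, e2, sa₁, sa₂, sb₁, sb₂]
  have hne1 : ({a₁, a₂} : Finset V).card = 2 := Finset.card_pair ha
  have hne2 : ({b₁, b₂} : Finset V).card = 2 := Finset.card_pair hb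
  have hcard : Nat.card (H.induce (C : Set V)).edgeSet = 2 := by
    rw [← card_sideEdges (H.induce (C : Set V)) (fun v => s v) hg.1]
    have : sideEdges (H.induce (C : Set V)) (fun v => s v) =
        (matchE Bool).image (Prod.map φ φ) := by
      ext ⟨u, v⟩
      obtain ⟨p, rfl⟩ := φ.surjective u
      obtain ⟨q, rfl⟩ := φ.surjective v
      simp only [sideEdges, Finset.mem_filter, Finset.mem_univ, true_and,
        SimpleGraph.comap_adj, Function.Embedding.subtype_apply, hφ, matchE, Finset.mem_image,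
        Prod.map_apply, Prod.mk.injEq, EmbeddingLike.apply_eq_iff_eq, Prod.exists]
      rcases p with ⟨_ | _, _ | _⟩ <;> rcases q with ⟨_ | _, _ | _⟩ <;>
        simp [f, n1, n2, e1, e2, sa₁, sa₂, sb₁, sb₂]
    rw [this, Finset.card_image_of_injective _ (φ.injective.prodMap φ.injective), matchE,
      Finset.card_image_of_injective, Finset.card_univ, Fintype.card_bool]
    intro i j h
    simpa using congrArg (fun p => p.1.1) h
  have hfil : ∀ b : Bool, (C.filter fun v => s v = b).card ≤ 2 := by
    intro b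
    cases b
    · rw [← hne1]
      refine Finset.card_le_card fun x hx => ?_
      rw [Finset.mem_filter, hC] at hx
      rcases hx.1 with rfl | rfl | rfl | rfl
      · simp
      · simp
      · exact absurd (sb₁.symm.trans hx.2) (by simp)
      · exact absurd (sb₂.symm.trans hx.2) (by simp)
    · rw [← hne2]
      refine Finset.card_le_card fun x hx => ?_
      rw [Finset.mem_filter, hC] at hx
      rcases hx.1 with rfl | rfl | rfl | rfl
      · exact absurd (sa₁.symm.trans hx.2) (by simp)
      · exact absurd (sa₂.symm.trans hx.2) (by simp)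
      · simp
      · simp
  refine join_plus hs C ?_ ?_ hg ⟨a₁, (hC _).2 (Or.inl rfl), b₂, by rw [hC]; tauto, e1⟩
    (fun b => by rw [hcard]; exact hfil b)
  · intro u hu hsu v hv hsv
    rcases (hC v).1 hv with rfl | rfl | rfl | rfl
    · exact absurd (sa₁.symm.trans hsv) (by simp)
    · exact absurd (sa₂.symm.trans hsv) (by simp)
    · exact (h₃ u hsu).2 fun h => hu (by rw [hC]; tauto)
    · exact (h₄ u hsu).2 fun h => hu (by rw [hC]; tauto)
  · intro u hu hsu
    have m1 : ¬ H.Adj u b₁ := fun h => hs _ _ h (hsu.trans sb₁.symm)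
    have m2 : ¬ H.Adj u b₂ := fun h => hs _ _ h (hsu.trans sb₂.symm)
    by_cases c1 : H.Adj u a₁ <;> by_cases c2 : H.Adj u a₂
    · left
      intro v hv hsv
      rcases (hC v).1 hv with rfl | rfl | rfl | rfl
      · exact c1
      · exact c2
      · exact absurd (sb₁.symm.trans hsv) (by simp)
      · exact absurd (sb₂.symm.trans hsv) (by simp)
    · right
      right
      refine ⟨a₁, (hC _).2 (Or.inl rfl), b₂, by rw [hC]; tauto, e1, ?_⟩
      intro z hz
      rcases (hC z).1 hz with rfl | rfl | rfl | rfl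
      · exact ⟨fun _ => rfl, fun _ => c1⟩
      · exact ⟨fun h => absurd h c2, fun h => absurd h.symm ha⟩
      · exact ⟨fun h => absurd h m1, fun h => absurd h (hab sa₁ sb₁).symm⟩
      · exact ⟨fun h => absurd h m2, fun h => absurd h (hab sa₁ sb₂).symm⟩
    · right
      right
      refine ⟨a₂, by rw [hC]; tauto, b₁, by rw [hC]; tauto, e2, ?_⟩
      intro z hz
      rcases (hC z).1 hz with rfl | rfl | rfl | rfl
      · exact ⟨fun h => absurd h c1, fun h => absurd h ha⟩
      · exact ⟨fun _ => rfl, fun _ => c2⟩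
      · exact ⟨fun h => absurd h m1, fun h => absurd h (hab sa₂ sb₁).symm⟩
      · exact ⟨fun h => absurd h m2, fun h => absurd h (hab sa₂ sb₂).symm⟩
    · right
      left
      intro v hv
      rcases (hC v).1 hv with rfl | rfl | rfl | rfl
      · exact c1
      · exact c2
      · exact m1
      · exact m2

/-- **Two vertices with one non-neighbour each.** Let `q₁`, `q₂` be two vertices on the same side of
a bipartite graph `H`, each with exactly one non-neighbour on the other side, the two non-neighbours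
being distinct. Then `H` satisfies the two-sided Sidorenko inequality. -/
theorem two_almost (hs : ∀ u v, H.Adj u v → s u ≠ s v) {q₁ q₂ a₁ a₂ : V} (hq : q₁ ≠ q₂)
    (ha : a₁ ≠ a₂) (hqq : s q₁ = s q₂) (sa₁ : s a₁ ≠ s q₁) (sa₂ : s a₂ ≠ s q₁)
    (h₁ : ∀ u, s u ≠ s q₁ → (H.Adj u q₁ ↔ u ≠ a₁)) (h₂ : ∀ u, s u ≠ s q₁ → (H.Adj u q₂ ↔ u ≠ a₂)) :
    GSid H s := by
  cases hc : s q₁
  · have hfl : GSid H (fun v => !s v) := by
      refine two_almost' (a₁ := a₁) (a₂ := a₂) (b₁ := q₁) (b₂ := q₂) ?_ ha hq ?_ ?_ ?_ ?_ ?_ ?_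
      · intro u v h h'
        exact hs u v h (by simpa using h')
      · rw [hc] at sa₁
        simpa using sa₁
      · rw [hc] at sa₂
        simpa using sa₂
      · simp [hc]
      · rw [← hqq, hc]
        rfl
      · intro u hu
        refine h₁ u ?_
        rw [hc]
        simpa using hu
      · intro u hu
        refine h₂ u ?_
        rw [hc]
        simpa using hu
    have := GSid.flip hfl
    simpa using this
  · refine two_almost' (a₁ := a₁) (a₂ := a₂) (b₁ := q₁) (b₂ := q₂) hs ha hq ?_ ?_ hc
      (hqq.symm.trans hc) ?_ ?_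
    · rw [hc] at sa₁
      simpa using sa₁
    · rw [hc] at sa₂
      simpa using sa₂
    · intro u hu
      refine h₁ u ?_
      rw [hc, hu]
      decide
    · intro u hu
      refine h₂ u ?_
      rw [hc, hu]
      decide

end Vale.Agent.P050.Tmpl
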