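import Vale.Agent.P050.Tmpl.Dense

/-!
Bipartite graphs whose bipartite complement has few edges, or two acyclic components.
-/

set_option linter.unusedSectionVars false

namespace Vale.Agent.P050.Tmpl

open Finset Vale.Agent.P050.Lev Vale.Agent.P050.Cart Vale.Agent.P050.Join

/-- The bipartite complement of the 2-coloured graph `(H, s)`: two vertices are adjacent iff they
have different colours and are not adjacent in `H`. -/
def bcompl {V : Type} (H : SimpleGraph V) (s : V → Bool) : SimpleGraph V where
  Adj u v := s u ≠ s v ∧ ¬ H.Adj u v
  symm := ⟨fun _ _ h => ⟨h.1.symm, fun h' => h.2 h'.symm⟩⟩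
  loopless := ⟨fun _ h => h.1 rfl⟩

variable {V : Type} [Fintype V] [DecidableEq V] {H : SimpleGraph V} {s : V → Bool}

theorem mem_nn' {u v : V} : u ∈ nn H s v ↔ (bcompl H s).Adj v u := by
  rw [mem_nn, ne_comm]
  exact Iff.rfl

theorem sum_nn_set (S : Set V) [DecidablePred (· ∈ S)] (hS : ∀ u ∈ S, ∀ v ∈ nn H s u, v ∈ S) :
    ∑ a ∈ univ.filter (fun a => a ∈ S ∧ s a = false), (nn H s a).card =
      Nat.card ((bcompl H s).induce S).edgeSet := by
  classical
  rw [← card_sideEdges ((bcompl H s).induce S) (fun v => s (v : V)) fun u v h => h.1]
  have h1 : (sideEdges ((bcompl H s).induce S) fun v => s (v : V)).card =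
      ∑ a : S, if s (a : V) = false then (nn H s a).card else 0 := by
    unfold sideEdges
    rw [Finset.card_filter, Fintype.sum_prod_type]
    refine Finset.sum_congr rfl fun a _ => ?_
    split_ifs with ha
    · refine (Finset.card_filter _ _).symm.trans ?_
      refine Finset.card_bij (fun b _ => (b : V)) ?_ ?_ ?_
      · intro b hb
        rw [Finset.mem_filter] at hb
        exact mem_nn'.2 hb.2.1
      · intro b _ b' _ h
        exact Subtype.ext h
      · intro b hb
        refine ⟨⟨b, hS a a.2 b hb⟩, ?_, rfl⟩
        rw [Finset.mem_filter]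
        refine ⟨mem_univ _, mem_nn'.1 hb, ha, ?_⟩
        have := (mem_nn.1 hb).1
        rw [ha] at this
        cases h : s b
        · exact absurd h this
        · exact h
    · refine Finset.sum_eq_zero fun b _ => ?_
      rw [if_neg]
      exact fun h => ha h.2.1
  rw [h1, Finset.sum_filter]
  rw [← Finset.sum_subtype (univ.filter fun a => a ∈ S) (p := fun a => a ∈ S) (by simp)
    (fun a => if s a = false then (nn H s a).card else 0), Finset.sum_filter]
  refine Finset.sum_congr rfl fun a _ => ?_
  by_cases h : a ∈ S <;> simp [h]

/-- **Two acyclic components.** If the bipartite complement of `H` has two acyclic components then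
`H` satisfies the two-sided Sidorenko inequality. -/
theorem comp_gsid (hs : ∀ u v, H.Adj u v → s u ≠ s v) (c₁ c₂ : (bcompl H s).ConnectedComponent)
    (hne : c₁ ≠ c₂) (h₁ : c₁.toSimpleGraph.IsAcyclic) (h₂ : c₂.toSimpleGraph.IsAcyclic) :
    GSid H s := by
  classical
  have clo : ∀ (c : (bcompl H s).ConnectedComponent), ∀ u ∈ c.supp, ∀ v ∈ nn H s u,
      v ∈ c.supp := by
    intro c u hu v hv
    rw [mem_nn'] at hv
    rw [SimpleGraph.ConnectedComponent.mem_supp_iff] at hu ⊢
    rw [← hu]
    exact (SimpleGraph.ConnectedComponent.sound hv.reachable).symm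
  have cnt : ∀ (c : (bcompl H s).ConnectedComponent), c.toSimpleGraph.IsAcyclic →
      ∑ a ∈ univ.filter (fun a => a ∈ c.supp ∧ s a = false), (nn H s a).card + 1 =
        (univ.filter fun a => a ∈ c.supp).card := by
    intro c hc
    rw [sum_nn_set c.supp (clo c)]
    have h := (SimpleGraph.isTree_iff_connected_and_card.1
      ⟨c.connected_toSimpleGraph, hc⟩).2
    have h' : Nat.card c = (univ.filter fun a => a ∈ c.supp).card := by
      exact Nat.subtype_card _ (by
        intro x
        rw [Finset.mem_filter]
        exact ⟨fun h => h.2, fun h => ⟨mem_univ _, h⟩⟩)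
    rw [← h']
    exact h
  have dis : ∀ v, v ∈ c₁.supp → v ∉ c₂.supp := by
    intro v h h'
    rw [SimpleGraph.ConnectedComponent.mem_supp_iff] at h h'
    exact hne (h.symm.trans h')
  set T₁ := univ.filter fun a => a ∈ c₁.supp with hT₁
  set T₂ := univ.filter fun a => a ∈ c₂.supp with hT₂
  have hd : Disjoint T₁ T₂ := by
    rw [Finset.disjoint_left]
    intro a ha hb
    rw [hT₁, Finset.mem_filter] at ha
    rw [hT₂, Finset.mem_filter] at hb
    exact dis a ha.2 hb.2
  refine core hs (T₁ ∪ T₂) ?_ ?_
  · intro u hu v hv
    rw [Finset.mem_union] at hu ⊢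
    rcases hu with h | h
    · left
      rw [hT₁, Finset.mem_filter] at h ⊢
      exact ⟨mem_univ _, clo c₁ u h.2 v hv⟩
    · right
      rw [hT₂, Finset.mem_filter] at h ⊢
      exact ⟨mem_univ _, clo c₂ u h.2 v hv⟩
  · rw [Finset.card_union_of_disjoint hd, Finset.filter_union, Finset.sum_union]
    · have e1 : T₁.filter (fun a => s a = false) = univ.filter fun a => a ∈ c₁.supp ∧ s a = false := by
        rw [hT₁, Finset.filter_filter]
      have e2 : T₂.filter (fun a => s a = false) = univ.filter fun a => a ∈ c₂.supp ∧ s a = false := by
        rw [hT₂, Finset.filter_filter]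
      have n1 := cnt c₁ h₁
      have n2 := cnt c₂ h₂
      rw [← hT₁] at n1
      rw [← hT₂] at n2
      rw [e1, e2]
      omega
    · exact Finset.disjoint_of_subset_left (Finset.filter_subset _ _)
        (Finset.disjoint_of_subset_right (Finset.filter_subset _ _) hd)

/-- **Few missing edges.** A bipartite graph with parts of `m` and `n` vertices and at least
`m n - (m + n) + 2` edges satisfies the two-sided Sidorenko inequality. -/
theorem dense_gsid (hs : ∀ u v, H.Adj u v → s u ≠ s v)
    (h : (univ.filter fun v => s v = false).card * (univ.filter fun v => s v = true).card + 2 ≤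
      Nat.card H.edgeSet + Fintype.card V) : GSid H s := by
  classical
  refine core hs univ (fun _ _ _ _ => mem_univ _) ?_
  rw [Finset.card_univ]
  have key : ∑ a ∈ univ.filter (fun a => s a = false), (nn H s a).card + Nat.card H.edgeSet =
      (univ.filter fun v => s v = false).card * (univ.filter fun v => s v = true).card := by
    rw [← card_sideEdges H s hs]
    have h1 : (sideEdges H s).card =
        ∑ a ∈ univ.filter (fun a => s a = false), (univ.filter fun b => H.Adj a b).card := by
      unfold sideEdges
      rw [Finset.card_filter, Fintype.sum_prod_type, Finset.sum_filter]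
      refine Finset.sum_congr rfl fun a _ => ?_
      split_ifs with ha
      · refine (Finset.card_filter _ _).symm.trans ?_
        congr 1
        refine Finset.filter_congr fun b _ => ?_
        refine ⟨fun h => h.1, fun h => ⟨h, ha, ?_⟩⟩
        have := hs _ _ h
        rw [ha] at this
        cases hb : s b
        · exact absurd hb.symm this
        · rfl
      · refine Finset.sum_eq_zero fun b _ => ?_
        rw [if_neg]
        exact fun h => ha h.2.1
    rw [h1, ← Finset.sum_add_distrib, ← smul_eq_mul, ← Finset.sum_const]
    refine Finset.sum_congr rfl fun a ha => ?_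
    rw [Finset.mem_filter] at ha
    rw [← Finset.card_union_of_disjoint]
    · congr 1
      ext b
      rw [Finset.mem_union, mem_nn, Finset.mem_filter, Finset.mem_filter, ha.2]
      constructor
      · rintro (h | h)
        · refine ⟨mem_univ _, ?_⟩
          cases hb : s b
          · exact absurd hb h.1
          · rfl
        · refine ⟨mem_univ _, ?_⟩
          have := hs _ _ h.2
          rw [ha.2] at this
          cases hb : s b
          · exact absurd hb.symm this
          · rfl
      · intro h
        by_cases hab : H.Adj a b
        · exact Or.inr ⟨mem_univ _, hab⟩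
        · exact Or.inl ⟨by rw [h.2]; decide, hab⟩
    · rw [Finset.disjoint_left]
      intro b hb hb'
      rw [mem_nn] at hb
      rw [Finset.mem_filter] at hb'
      exact hb.2 hb'.2
  omega

end Vale.Agent.P050.Tmpl
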