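import Vale.Agent.P050.Tmpl.Law
import Vale.Agent.P050.Lev.KSid

/-!
The number of edges of a relative tensor product.
-/

set_option linter.unusedSectionVars false

namespace Vale.Agent.P050.Tmpl

open Finset Vale.Agent.P050.Lev

variable {V VG : Type} [Fintype V] [DecidableEq V] [Fintype VG] [DecidableEq VG]
  {G : SimpleGraph VG} {t : VG → Bool} {H : SimpleGraph V} {s : V → Bool} {K : Finset V}

theorem sum_rel {M : Type} [AddCommMonoid M] (F : RV t s K → M) (f : V → M) (g : VG → V → M)
    (h1 : ∀ v, F (Sum.inl v) = f v) (h2 : ∀ p, F (Sum.inr p) = g p.1.1 p.1.2) :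
    ∑ a, F a = (∑ v, if v ∈ K then f v else 0) +
      ∑ v, if v ∈ K then 0 else ∑ p, if t p = s v then g p v else 0 := by
  rw [Fintype.sum_sum_type]
  congr 1
  · rw [Finset.sum_congr rfl fun v _ => h1 v, Finset.sum_coe_sort K f, Finset.sum_ite_mem,
      Finset.univ_inter]
  · rw [Finset.sum_congr rfl fun p _ => h2 p]
    have h3 : ∑ p ∈ univ.filter (fun p : VG × V => p.2 ∉ K ∧ t p.1 = s p.2), g p.1 p.2 =
        ∑ p : {p : VG × V // p.2 ∉ K ∧ t p.1 = s p.2}, g p.1.1 p.1.2 :=
      Finset.sum_subtype _ (fun x => by simp) fun p : VG × V => g p.1 p.2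
    rw [← h3, Finset.sum_filter, Fintype.sum_prod_type, Finset.sum_comm]
    refine Finset.sum_congr rfl fun v _ => ?_
    by_cases hv : v ∈ K
    · simp [hv]
    · simp [hv]

open Classical in
/-- indicator of an edge of `H` -/
noncomputable def ia (H : SimpleGraph V) (s : V → Bool) (u v : V) : ℕ :=
  if H.Adj u v ∧ s u = false ∧ s v = true then 1 else 0

open Classical in
theorem sum_ia (f : Bool → Bool → ℕ) :
    ∑ u, ∑ v, ia H s u v * f (decide (u ∈ K)) (decide (v ∈ K)) =
      ∑ a : Bool, ∑ b : Bool, f a b * ec H s K a b := by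
  unfold ec ia
  simp only [Finset.card_filter, Finset.mul_sum]
  rw [← Fintype.sum_prod_type'
    (f := fun u v : V => (if H.Adj u v ∧ s u = false ∧ s v = true then 1 else 0) *
      f (decide (u ∈ K)) (decide (v ∈ K))), ← Fintype.sum_prod_type' (f := fun a b : Bool =>
    ∑ e : V × V, f a b * if (decide (e.1 ∈ K) = a ∧ decide (e.2 ∈ K) = b) ∧ H.Adj e.1 e.2 ∧
      s e.1 = false ∧ s e.2 = true then 1 else 0), Finset.sum_comm]
  refine Finset.sum_congr rfl fun e _ => ?_
  rw [Finset.sum_eq_single (decide (e.1 ∈ K), decide (e.2 ∈ K))]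
  · simp only [true_and, and_self]
    rw [mul_comm]
  · rintro ⟨a, b⟩ _ hab
    refine mul_eq_zero_of_right _ (if_neg ?_)
    rintro ⟨⟨rfl, rfl⟩, _⟩
    exact hab rfl
  · intro h
    exact absurd (mem_univ _) h

theorem card_rel : (sideEdges (relTensor G t H s K) (relSide t s K)).card =
    ec H s K true true + (univ.filter fun p => t p = false).card * ec H s K false true +
    (univ.filter fun p => t p = true).card * ec H s K true false +
    (sideEdges G t).card * ec H s K false false := by
  classical
  set n := (univ.filter fun p => t p = false).card with hn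
  set k := (univ.filter fun p => t p = true).card with hk
  set g := (sideEdges G t).card with hg
  have h0 : (sideEdges (relTensor G t H s K) (relSide t s K)).card = ∑ a : RV t s K,
      ∑ b : RV t s K, if (relTensor G t H s K).Adj a b ∧ relSide t s K a = false ∧
        relSide t s K b = true then 1 else 0 := by
    unfold sideEdges
    rw [Finset.card_filter, Fintype.sum_prod_type]
  -- inner sums
  have h1 : ∀ u : {v : V // v ∈ K}, (∑ b : RV t s K, if (relTensor G t H s K).Adj (Sum.inl u) b ∧
      relSide t s K (Sum.inl u) = false ∧ relSide t s K b = true then 1 else 0) =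
      (∑ v, if v ∈ K then ia H s u v else 0) +
      ∑ v, if v ∈ K then 0 else ∑ q, if t q = s v then ia H s u v else 0 := fun u =>
    sum_rel _ _ _ (fun v => rfl) (fun p => rfl)
  have h2 : ∀ p : {p : VG × V // p.2 ∉ K ∧ t p.1 = s p.2}, (∑ b : RV t s K,
      if (relTensor G t H s K).Adj (Sum.inr p) b ∧
      relSide t s K (Sum.inr p) = false ∧ relSide t s K b = true then 1 else 0) =
      (∑ v, if v ∈ K then ia H s p.1.2 v else 0) +
      ∑ v, if v ∈ K then 0 else ∑ q, if t q = s v then
        (if G.Adj p.1.1 q then ia H s p.1.2 v else 0) else 0 := by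
    intro p
    refine sum_rel _ (fun v => ia H s p.1.2 v) (fun q v => if G.Adj p.1.1 q then
      ia H s p.1.2 v else 0) (fun v => rfl) (fun q => ?_)
    unfold ia
    have h3 : ((relTensor G t H s K).Adj (Sum.inr p) (Sum.inr q) ∧
        relSide t s K (Sum.inr p) = false ∧ relSide t s K (Sum.inr q) = true) ↔
        (G.Adj p.1.1 q.1.1 ∧ H.Adj p.1.2 q.1.2) ∧ s p.1.2 = false ∧ s q.1.2 = true := Iff.rfl
    by_cases h : G.Adj p.1.1 q.1.1
    · rw [if_pos h]
      refine if_congr (h3.trans ?_) rfl rfl
      simp [h]
    · rw [if_neg h, if_neg fun h4 => h (h3.1 h4).1.1]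
  rw [h0, sum_rel _ (fun u => (∑ v, if v ∈ K then ia H s u v else 0) +
      ∑ v, if v ∈ K then 0 else ∑ q, if t q = s v then ia H s u v else 0)
    (fun p u => (∑ v, if v ∈ K then ia H s u v else 0) +
      ∑ v, if v ∈ K then 0 else ∑ q, if t q = s v then
        (if G.Adj p q then ia H s u v else 0) else 0) h1 h2]
  -- the number of copies
  have c1 : ∀ u v, (∑ q, if t q = s v then ia H s u v else 0) = ia H s u v * k := by
    intro u v
    by_cases h : H.Adj u v ∧ s u = false ∧ s v = true
    · rw [h.2.2, ← Finset.sum_filter, Finset.sum_const, smul_eq_mul, mul_comm]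
    · simp [ia, h]
  have c2 : ∀ u v, (∑ p, if t p = s u then ia H s u v else 0) = ia H s u v * n := by
    intro u v
    by_cases h : H.Adj u v ∧ s u = false ∧ s v = true
    · rw [h.2.1, ← Finset.sum_filter, Finset.sum_const, smul_eq_mul, mul_comm]
    · simp [ia, h]
  have c3 : ∀ u v, (∑ p, if t p = s u then (∑ q, if t q = s v then
      (if G.Adj p q then ia H s u v else 0) else 0) else 0) = ia H s u v * g := by
    intro u v
    by_cases h : H.Adj u v ∧ s u = false ∧ s v = true
    · have h3 : ia H s u v = 1 := by simp [ia, h]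
      rw [h3, one_mul, h.2.1, h.2.2, hg]
      unfold sideEdges
      rw [Finset.card_filter, Fintype.sum_prod_type]
      refine Finset.sum_congr rfl fun p _ => ?_
      by_cases hp : t p = false
      · rw [if_pos hp]
        refine Finset.sum_congr rfl fun q _ => ?_
        by_cases hq : t q = true
        · simp [hp, hq]
        · simp [hq]
      · rw [if_neg hp]
        symm
        refine Finset.sum_eq_zero fun q _ => if_neg fun h' => hp h'.2.1
    · simp [ia, h]
  have d1 : (∑ u, if u ∈ K then ((∑ v, if v ∈ K then ia H s u v else 0) +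
      ∑ v, if v ∈ K then 0 else ∑ q, if t q = s v then ia H s u v else 0) else 0) =
      ∑ u, ∑ v, ia H s u v * (if u ∈ K then (if v ∈ K then 1 else k) else 0) := by
    refine Finset.sum_congr rfl fun u _ => ?_
    by_cases hu : u ∈ K
    · simp only [if_pos hu]
      rw [← Finset.sum_add_distrib]
      refine Finset.sum_congr rfl fun v _ => ?_
      by_cases hv : v ∈ K
      · simp [hv]
      · simp only [if_neg hv, zero_add]
        exact c1 u v
    · simp [hu]
  have d2 : (∑ u, if u ∈ K then 0 else ∑ p, if t p = s u then
      ((∑ v, if v ∈ K then ia H s u v else 0) + ∑ v, if v ∈ K then 0 else ∑ q, if t q = s v then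
        (if G.Adj p q then ia H s u v else 0) else 0) else 0) =
      ∑ u, ∑ v, ia H s u v * (if u ∈ K then 0 else (if v ∈ K then n else g)) := by
    refine Finset.sum_congr rfl fun u _ => ?_
    by_cases hu : u ∈ K
    · simp [hu]
    · simp only [if_neg hu]
      have e1 : ∀ p, (if t p = s u then ((∑ v, if v ∈ K then ia H s u v else 0) +
          ∑ v, if v ∈ K then 0 else ∑ q, if t q = s v then
            (if G.Adj p q then ia H s u v else 0) else 0) else 0) =
          ∑ v, if v ∈ K then (if t p = s u then ia H s u v else 0) else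
            (if t p = s u then (∑ q, if t q = s v then
              (if G.Adj p q then ia H s u v else 0) else 0) else 0) := by
        intro p
        by_cases hp : t p = s u
        · simp only [if_pos hp]
          rw [← Finset.sum_add_distrib]
          refine Finset.sum_congr rfl fun v _ => ?_
          by_cases hv : v ∈ K
          · simp [hv]
          · simp [hv]
        · simp [hp]
      rw [Finset.sum_congr rfl fun p _ => e1 p, Finset.sum_comm]
      refine Finset.sum_congr rfl fun v _ => ?_
      by_cases hv : v ∈ K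
      · simp only [if_pos hv]
        exact c2 u v
      · simp only [if_neg hv]
        exact c3 u v
  rw [d1, d2, ← Finset.sum_add_distrib]
  have d3 := sum_ia (H := H) (s := s) (K := K)
    fun a b => if a then (if b then 1 else k) else (if b then n else g)
  have d4 : ∀ u, ((∑ v, ia H s u v * (if u ∈ K then (if v ∈ K then 1 else k) else 0)) +
      ∑ v, ia H s u v * (if u ∈ K then 0 else (if v ∈ K then n else g))) =
      ∑ v, ia H s u v * (if decide (u ∈ K) = true then (if decide (v ∈ K) = true then 1 else k)
        else (if decide (v ∈ K) = true then n else g)) := by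
    intro u
    rw [← Finset.sum_add_distrib]
    refine Finset.sum_congr rfl fun v _ => ?_
    by_cases hu : u ∈ K <;> simp [hu]
  rw [Finset.sum_congr rfl fun u _ => d4 u]
  refine d3.trans ?_
  simp
  ring

end Vale.Agent.P050.Tmpl
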