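import Mathlib

/-!
Star-grown graphs and relative tensor products.
-/

namespace Vale.Agent.P050.Tmpl

/-- `StarExt H S₀ C₀ S C`: the graph induced by `H` on `S` is obtained from the one on `S₀` by adding,
one after the other, isolated vertices, leaves, and copies, that is, vertices `w` whose neighbourhood
`D` is a nonempty subset of a star at some vertex `v`. The relation `C v D` says that `D` is a star
at `v`. The stars at the beginning are given by `C₀`; an isolated vertex gets the star `∅`; a leaf
`w` at `v` gets the star `{v}`, and `w` can be added to each star at `v`; a copy `w` with the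
neighbourhood `D` gets the star `D`, and each vertex of `D` gets the star `{w}`. -/
inductive StarExt {V : Type} [DecidableEq V] (H : SimpleGraph V) (S₀ : Finset V)
    (C₀ : V → Finset V → Prop) : Finset V → (V → Finset V → Prop) → Prop
  | base : StarExt H S₀ C₀ S₀ C₀
  | isolated {S : Finset V} {C : V → Finset V → Prop} (w : V) : StarExt H S₀ C₀ S C → w ∉ S →
      (∀ x ∈ S, ¬ H.Adj w x) → StarExt H S₀ C₀ (insert w S) fun a B => C a B ∨ (a = w ∧ B = ∅)
  | leaf {S : Finset V} {C : V → Finset V → Prop} (w v : V) : StarExt H S₀ C₀ S C → w ∉ S →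
      v ∈ S → (∀ x ∈ S, H.Adj w x ↔ x = v) → StarExt H S₀ C₀ (insert w S) fun a B => C a B ∨
        (a = w ∧ B = {v}) ∨ (a = v ∧ ∃ D, C v D ∧ B = insert w D)
  | copy {S : Finset V} {C : V → Finset V → Prop} (w v : V) (D₀ D : Finset V) :
      StarExt H S₀ C₀ S C → w ∉ S → C v D₀ → D ⊆ D₀ → D.Nonempty → (∀ x ∈ S, H.Adj w x ↔ x ∈ D) →
      StarExt H S₀ C₀ (insert w S) fun a B => C a B ∨ (a = w ∧ B = D) ∨ (a ∈ D ∧ B = {w})

/-- `StarGrown H S C`: the graph induced by `H` on `S`, with the stars given by `C`, is built in this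
way from the empty graph. -/
def StarGrown {V : Type} [DecidableEq V] (H : SimpleGraph V) (S : Finset V)
    (C : V → Finset V → Prop) : Prop := StarExt H ∅ (fun _ _ => False) S C

/-- The vertex set of the tensor product of the 2-coloured graphs `(G, t)` and `(H, s)` relative to a
set `K` of vertices of `H`: the vertices of `K`, and the pairs `(p, v)`, `p` a vertex of `G` and `v`
a vertex of `H` outside `K`, of the same colour. -/
abbrev RV {VG V : Type} (t : VG → Bool) (s : V → Bool) (K : Finset V) : Type :=
  {v : V // v ∈ K} ⊕ {p : VG × V // p.2 ∉ K ∧ t p.1 = s p.2}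

/-- The tensor product of the 2-coloured graphs `(G, t)` and `(H, s)` relative to a set `K` of
vertices of `H`: two vertices of `K` are adjacent as in `H`; a vertex `u` of `K` is adjacent to
`(p, v)` iff `u` is adjacent to `v` in `H`; and `(p, u)` is adjacent to `(q, v)` iff `p` is adjacent
to `q` in `G` and `u` to `v` in `H`. -/
def relTensor {VG V : Type} (G : SimpleGraph VG) (t : VG → Bool) (H : SimpleGraph V)
    (s : V → Bool) (K : Finset V) : SimpleGraph (RV t s K) where
  Adj
    | Sum.inl u, Sum.inl v => H.Adj u v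
    | Sum.inl u, Sum.inr q => H.Adj u q.1.2
    | Sum.inr p, Sum.inl v => H.Adj p.1.2 v
    | Sum.inr p, Sum.inr q => G.Adj p.1.1 q.1.1 ∧ H.Adj p.1.2 q.1.2
  symm := ⟨by
    rintro (u | p) (v | q) h
    · exact h.symm
    · exact h.symm
    · exact h.symm
    · exact ⟨h.1.symm, h.2.symm⟩⟩
  loopless := ⟨by
    rintro (u | p) h
    · exact H.loopless.irrefl _ h
    · exact H.loopless.irrefl _ h.2⟩

/-- the 2-colouring of `relTensor` -/
def relSide {VG V : Type} (t : VG → Bool) (s : V → Bool) (K : Finset V) : RV t s K → Bool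
  | Sum.inl v => s v
  | Sum.inr p => s p.1.2

/-- `Lift p q v a`: the vertex `a` of the relative tensor product is the lift of the vertex `v` of
`H` along the edge `p q` of `G`: `v` itself if `v` is in `K`, otherwise `(p, v)` or `(q, v)`. -/
def Lift {VG V : Type} {t : VG → Bool} {s : V → Bool} {K : Finset V} (p q : VG) (v : V) :
    RV t s K → Prop
  | Sum.inl u => (u : V) = v
  | Sum.inr x => x.1.2 = v ∧ (x.1.1 = p ∨ x.1.1 = q)

/-- the stars of a relative tensor product: the lifts of the stars of `H` along the edges of `G` -/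
def LiftStar {VG V : Type} (G : SimpleGraph VG) (t : VG → Bool) (s : V → Bool) (K : Finset V)
    (C : V → Finset V → Prop) (a : RV t s K) (B : Finset (RV t s K)) : Prop :=
  ∃ p q, G.Adj p q ∧ ∃ v D, C v D ∧ Lift p q v a ∧ ∀ b, b ∈ B ↔ ∃ w ∈ D, Lift p q w b

end Vale.Agent.P050.Tmpl
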