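import Vale.Agent.P050.Tmpl.Grown

/-!
Bipartite graphs whose bipartite complement has few edges, or two acyclic components.
-/

set_option linter.unusedSectionVars false

namespace Vale.Agent.P050.Tmpl

open Finset Vale.Agent.P050.Lev Vale.Agent.P050.Cart Vale.Agent.P050.Join

variable {V : Type} [Fintype V] [DecidableEq V] {H : SimpleGraph V} {s : V → Bool}

/-- the non-neighbours of `v` on the other side -/
noncomputable def nn (H : SimpleGraph V) (s : V → Bool) (v : V) : Finset V :=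
  (Set.toFinite {u | s u ≠ s v ∧ ¬ H.Adj v u}).toFinset

theorem mem_nn {u v : V} : u ∈ nn H s v ↔ s u ≠ s v ∧ ¬ H.Adj v u := by
  unfold nn
  rw [Set.Finite.mem_toFinset]
  exact Iff.rfl

theorem nn_symm {u v : V} : u ∈ nn H s v ↔ v ∈ nn H s u := by
  rw [mem_nn, mem_nn, ne_comm, H.adj_comm]

theorem count1 (A : Finset V) (f : V → ℕ) (hf : ∀ a ∈ A, 1 ≤ f a) :
    2 * A.card ≤ ∑ a ∈ A, f a + (A.filter fun a => f a = 1).card := by
  rw [Finset.card_filter, ← Finset.sum_add_distrib, mul_comm, ← smul_eq_mul, ← Finset.sum_const]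
  refine Finset.sum_le_sum fun a ha => ?_
  have := hf a ha
  split_ifs <;> omega

theorem count2 (A : Finset V) (f : V → ℕ) (hf : ∀ a ∈ A, 1 ≤ f a) {a₀ : V} (h₀ : a₀ ∈ A) :
    2 * A.card + f a₀ ≤ ∑ a ∈ A, f a + (A.filter fun a => f a = 1).card + 2 := by
  have h1 := count1 (A.erase a₀) f fun a ha => hf a (Finset.mem_of_mem_erase ha)
  have h2 := Finset.add_sum_erase A f h₀
  have h3 : ((A.erase a₀).filter fun a => f a = 1).card ≤ (A.filter fun a => f a = 1).card :=
    Finset.card_le_card (Finset.filter_subset_filter _ (Finset.erase_subset _ _))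
  have h4 := Finset.card_erase_add_one h₀
  omega

/-- double counting of the non-adjacent pairs in a closed set -/
theorem count_nn (T : Finset V) (hT : ∀ u ∈ T, ∀ v ∈ nn H s u, v ∈ T) :
    ∑ a ∈ T.filter (fun a => s a = false), (nn H s a).card =
      ∑ b ∈ T.filter (fun a => s a = true), (nn H s b).card := by
  classical
  have key := Finset.sum_card_bipartiteAbove_eq_sum_card_bipartiteBelow
    (s := T.filter (fun a => s a = false)) (t := T.filter (fun a => s a = true))
    (fun a b => ¬ H.Adj a b)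
  refine Eq.trans ?_ (key.trans ?_)
  · refine Finset.sum_congr rfl fun a ha => ?_
    rw [Finset.mem_filter] at ha
    congr 1
    ext b
    simp only [Finset.bipartiteAbove, Finset.mem_filter]
    rw [mem_nn, ha.2]
    constructor
    · intro h
      refine ⟨⟨hT a ha.1 b (mem_nn.2 ⟨by rw [ha.2]; exact h.1, h.2⟩), ?_⟩, h.2⟩
      cases hb : s b
      · exact absurd hb h.1
      · rfl
    · rintro ⟨⟨_, h1⟩, h2⟩
      exact ⟨by rw [h1]; decide, h2⟩
  · refine Finset.sum_congr rfl fun b hb => ?_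
    rw [Finset.mem_filter] at hb
    congr 1
    ext a
    simp only [Finset.bipartiteBelow, Finset.mem_filter]
    rw [mem_nn, hb.2]
    constructor
    · rintro ⟨⟨_, h1⟩, h2⟩
      exact ⟨by rw [h1]; decide, fun h => h2 h.symm⟩
    · intro h
      refine ⟨⟨hT b hb.1 a (mem_nn.2 ⟨by rw [hb.2]; exact h.1, h.2⟩), ?_⟩, fun h' => h.2 h'.symm⟩
      cases ha : s a
      · rfl
      · exact absurd ha h.1

/-- if each vertex of `C` has a neighbour in `C`, then `H[C]` has at least as many edges as vertices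
on either side -/
theorem card_side_le (hs : ∀ u v, H.Adj u v → s u ≠ s v) (C : Finset V)
    (h : ∀ v ∈ C, ∃ w ∈ C, H.Adj v w) (b : Bool) :
    (C.filter fun v => s v = b).card ≤ Nat.card (H.induce (C : Set V)).edgeSet := by
  classical
  choose! f hfC hf using h
  have : Nat.card {v : V // v ∈ C ∧ s v = b} ≤ Nat.card (H.induce (C : Set V)).edgeSet := by
    let g : {v : V // v ∈ C ∧ s v = b} → (H.induce (C : Set V)).edgeSet := fun v =>
      ⟨s(⟨v.1, v.2.1⟩, ⟨f v.1, hfC v.1 v.2.1⟩), hf v.1 v.2.1⟩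
    refine Nat.card_le_card_of_injective g ?_
    rintro ⟨v, hv, hsv⟩ ⟨w, hw, hsw⟩ hvw
    have h1 := congrArg Subtype.val hvw
    simp only [g] at h1
    rw [Sym2.eq_iff] at h1
    rcases h1 with h1 | h1
    · have h2 : v = w := congrArg (fun z : (C : Set V) => (z : V)) h1.1
      subst h2
      rfl
    · exfalso
      have h2 : v = f w := congrArg (fun z : (C : Set V) => (z : V)) h1.1
      have h3 := hs _ _ (hf w hw)
      rw [← h2, hsv, hsw] at h3
      exact h3 rfl
  refine le_trans (le_of_eq ?_) this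
  rw [Nat.card_eq_fintype_card, Fintype.card_subtype]
  congr 1
  ext v
  simp

/-- two stars in the bipartite complement -/
theorem two_stars (hs : ∀ u v, H.Adj u v → s u ≠ s v) {A₁ B₁ : Finset V} {a₀ b₀ : V}
    (sA : ∀ a ∈ A₁, s a = false) (sB : ∀ b ∈ B₁, s b = true) (ha₀s : s a₀ = false)
    (hb₀s : s b₀ = true) (na : a₀ ∉ A₁) (nb : b₀ ∉ B₁) (hA0 : A₁.Nonempty) (hB0 : B₁.Nonempty)
    (hb₀ : ∀ a ∈ A₁, nn H s a = {b₀}) (ha₀ : ∀ b ∈ B₁, nn H s b = {a₀}) (e1 : nn H s b₀ = A₁)
    (e2 : nn H s a₀ = B₁) : GSid H s := by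
  classical
  have hab : H.Adj a₀ b₀ := by
    by_contra h
    exact nb (by rw [← e2, mem_nn]; exact ⟨by rw [ha₀s, hb₀s]; decide, h⟩)
  let C : Finset V := (A₁ ∪ B₁) ∪ {a₀, b₀}
  have hC : ∀ v, v ∈ C ↔ v ∈ A₁ ∨ v ∈ B₁ ∨ v = a₀ ∨ v = b₀ := by
    intro v
    simp only [C, Finset.mem_union, Finset.mem_insert, Finset.mem_singleton]
    tauto
  have hAB : ∀ a ∈ A₁, ∀ b ∈ B₁, H.Adj a b := by
    intro a ha b hb
    by_contra h
    have : b ∈ nn H s a := mem_nn.2 ⟨by rw [sA a ha, sB b hb]; decide, h⟩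
    rw [hb₀ a ha, Finset.mem_singleton] at this
    exact nb (this ▸ hb)
  have nAb : ∀ a ∈ A₁, ¬ H.Adj a b₀ := by
    intro a ha
    have : b₀ ∈ nn H s a := by rw [hb₀ a ha]; exact Finset.mem_singleton_self _
    exact (mem_nn.1 this).2
  have nBa : ∀ b ∈ B₁, ¬ H.Adj a₀ b := by
    intro b hb
    have : b ∈ nn H s a₀ := by rw [e2]; exact hb
    exact (mem_nn.1 this).2
  have hnn : ∀ v ∈ C, ∀ u ∈ nn H s v, u ∈ C := by
    intro v hv u hu
    rw [hC]
    rcases (hC v).1 hv with h | h | h | h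
    · rw [hb₀ v h, Finset.mem_singleton] at hu
      exact Or.inr (Or.inr (Or.inr hu))
    · rw [ha₀ v h, Finset.mem_singleton] at hu
      exact Or.inr (Or.inr (Or.inl hu))
    · rw [h, e2] at hu
      exact Or.inr (Or.inl hu)
    · rw [h, e1] at hu
      exact Or.inl hu
  have hout : ∀ u, u ∉ C → ∀ v ∈ C, s v ≠ s u → H.Adj u v := by
    intro u hu v hv hsv
    by_contra h
    exact hu (hnn v hv u (mem_nn.2 ⟨hsv.symm, fun h' => h h'.symm⟩))
  obtain ⟨x, hx⟩ := hA0
  obtain ⟨y, hy⟩ := hB0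
  have xC : x ∈ C := (hC x).2 (Or.inl hx)
  have yC : y ∈ C := (hC y).2 (Or.inr (Or.inl hy))
  have aC : a₀ ∈ C := (hC a₀).2 (Or.inr (Or.inr (Or.inl rfl)))
  have bC : b₀ ∈ C := (hC b₀).2 (Or.inr (Or.inr (Or.inr rfl)))
  have hg : GSid (H.induce (C : Set V)) (fun v => s (v : V)) := by
    let ι : Type := (C : Set V)
    have hs' : ∀ u v : (C : Set V), (H.induce (C : Set V)).Adj u v → s u ≠ s v :=
      fun u v h => hs _ _ h
    obtain ⟨D, hD⟩ := starGrown_union (H := H.induce (C : Set V)) (s := fun v => s (v : V)) hs'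
      (univ.filter fun v : (C : Set V) => (v : V) ∈ A₁)
      (univ.filter fun v : (C : Set V) => (v : V) ∈ B₁) (a₀ := ⟨a₀, aC⟩) (b₀ := ⟨b₀, bC⟩)
      (by
        intro a ha
        rw [Finset.mem_filter] at ha
        exact sA _ ha.2)
      (by
        intro a ha
        rw [Finset.mem_filter] at ha
        exact sB _ ha.2)
      ⟨⟨x, xC⟩, by rw [Finset.mem_filter]; exact ⟨mem_univ _, hx⟩⟩
      ⟨⟨y, yC⟩, by rw [Finset.mem_filter]; exact ⟨mem_univ _, hy⟩⟩
      (by
        intro a ha b hb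
        rw [Finset.mem_filter] at ha hb
        exact hAB _ ha.2 _ hb.2)
      (by
        rw [Finset.mem_filter]
        exact fun h => na h.2)
      (by
        rw [Finset.mem_filter]
        exact fun h => nb h.2)
      ha₀s hb₀s hab
      (by
        intro b hb
        rw [Finset.mem_filter] at hb
        exact nBa _ hb.2)
      (by
        intro a ha
        rw [Finset.mem_filter] at ha
        exact nAb _ ha.2)
      (by
        rintro ⟨v, hv⟩
        simp only [Finset.mem_filter, Finset.mem_univ, true_and, Subtype.mk.injEq]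
        exact (hC v).1 hv)
    exact starGrown_gsid hs' hD
  have hnb : ∀ v ∈ C, ∃ w ∈ C, H.Adj v w := by
    intro v hv
    rcases (hC v).1 hv with h | h | h | h
    · exact ⟨y, yC, hAB v h y hy⟩
    · exact ⟨x, xC, (hAB x hx v h).symm⟩
    · exact ⟨b₀, bC, by rw [h]; exact hab⟩
    · exact ⟨a₀, aC, by rw [h]; exact hab.symm⟩
  refine join_main hs C ?_ ?_ hg ⟨a₀, aC, b₀, bC, hab⟩ (card_side_le hs C hnb false)
    (card_side_le hs C hnb true)
  · intro u hu hsu v hv hsv
    exact hout u hu v hv (by rw [hsu, hsv]; decide)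
  · intro u hu hsu
    left
    intro v hv hsv
    exact hout u hu v hv (by rw [hsu, hsv]; decide)

/-- **Core.** Let `T` be a union of components of the bipartite complement of `H` that has at least
two vertices more than edges. Then `H` satisfies the two-sided Sidorenko inequality. -/
theorem core (hs : ∀ u v, H.Adj u v → s u ≠ s v) (T : Finset V)
    (hT : ∀ u ∈ T, ∀ v ∈ nn H s u, v ∈ T)
    (hE : ∑ a ∈ T.filter (fun a => s a = false), (nn H s a).card + 2 ≤ T.card) : GSid H s := by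
  classical
  -- first case: a vertex without non-neighbours
  by_cases c0 : ∃ v, nn H s v = ∅
  · obtain ⟨v, hv⟩ := c0
    obtain ⟨C, hC⟩ := starGrown_of_dominating (y := v) hs (by
      intro u hu
      by_contra h
      have : u ∈ nn H s v := mem_nn.2 ⟨hu, fun h' => h h'.symm⟩
      rw [hv] at this
      exact absurd this (Finset.notMem_empty _))
    exact starGrown_gsid hs hC
  push Not at c0
  have c0' : ∀ v, 1 ≤ (nn H s v).card := fun v => Finset.card_pos.2 (c0 v)
  -- second case: two vertices with one non-neighbour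
  by_cases c1 : ∃ q₁ q₂ a₁ a₂, s q₁ = s q₂ ∧ nn H s q₁ = {a₁} ∧ nn H s q₂ = {a₂} ∧ a₁ ≠ a₂
  · obtain ⟨q₁, q₂, a₁, a₂, hq, h1, h2, ha⟩ := c1
    have m1 : ∀ u, s u ≠ s q₁ → (H.Adj u q₁ ↔ u ≠ a₁) := by
      intro u hu
      have : u ∈ nn H s q₁ ↔ u = a₁ := by rw [h1, Finset.mem_singleton]
      rw [mem_nn] at this
      rw [H.adj_comm, Ne, ← this]
      tauto
    have m2 : ∀ u, s u ≠ s q₁ → (H.Adj u q₂ ↔ u ≠ a₂) := by
      intro u hu
      have : u ∈ nn H s q₂ ↔ u = a₂ := by rw [h2, Finset.mem_singleton]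
      rw [mem_nn, ← hq] at this
      rw [H.adj_comm, Ne, ← this]
      tauto
    have s1 : s a₁ ≠ s q₁ := (mem_nn.1 (by rw [h1]; exact Finset.mem_singleton_self _)).1
    have s2 : s a₂ ≠ s q₂ := (mem_nn.1 (by rw [h2]; exact Finset.mem_singleton_self _)).1
    refine two_almost hs (q₁ := q₁) (q₂ := q₂) ?_ ha hq s1 (by rw [hq]; exact s2) m1 m2
    rintro rfl
    rw [h1, Finset.singleton_inj] at h2
    exact ha h2
  -- the vertices with one non-neighbour on either side have the same non-neighbour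
  have c2 : ∀ q₁ q₂ a₁ a₂, s q₁ = s q₂ → nn H s q₁ = {a₁} → nn H s q₂ = {a₂} → a₁ = a₂ := by
    intro q₁ q₂ a₁ a₂ h h1 h2
    by_contra h3
    exact c1 ⟨q₁, q₂, a₁, a₂, h, h1, h2, h3⟩
  set A := T.filter (fun a => s a = false) with hA
  set B := T.filter (fun a => s a = true) with hB
  set A₁ := A.filter fun a => (nn H s a).card = 1 with hA₁
  set B₁ := B.filter fun a => (nn H s a).card = 1 with hB₁
  have hdc := count_nn T hT
  rw [← hA, ← hB] at hdc
  have hTc : A.card + B.card = T.card := by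
    rw [hA, hB]
    have h1 := Finset.card_filter_add_card_filter_not (s := T) (fun a => s a = false)
    have h2 : (T.filter fun a => ¬ s a = false) = T.filter fun a => s a = true := by
      refine Finset.filter_congr fun a _ => ?_
      simp
    rw [h2] at h1
    exact h1
  have hA1 := count1 A (fun a => (nn H s a).card) fun a _ => c0' a
  have hB1 := count1 B (fun a => (nn H s a).card) fun a _ => c0' a
  rw [← hA₁] at hA1
  rw [← hB₁] at hB1
  have memA₁ : ∀ a, a ∈ A₁ ↔ a ∈ T ∧ s a = false ∧ (nn H s a).card = 1 := by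
    intro a
    rw [hA₁, hA, Finset.mem_filter, Finset.mem_filter, and_assoc]
  have memB₁ : ∀ a, a ∈ B₁ ↔ a ∈ T ∧ s a = true ∧ (nn H s a).card = 1 := by
    intro a
    rw [hB₁, hB, Finset.mem_filter, Finset.mem_filter, and_assoc]
  -- the common non-neighbours
  have common : ∀ (c : Bool) (L : Finset V), (∀ a ∈ L, a ∈ T ∧ s a = c ∧ (nn H s a).card = 1) →
      L.Nonempty → ∃ b₀, b₀ ∈ T ∧ s b₀ = !c ∧ ∀ a ∈ L, nn H s a = {b₀} := by
    intro c L hL ⟨a, ha⟩
    obtain ⟨haT, hsa, hac⟩ := hL a ha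
    obtain ⟨b₀, hb₀⟩ := Finset.card_eq_one.1 hac
    have h1 : b₀ ∈ nn H s a := by rw [hb₀]; exact Finset.mem_singleton_self _
    refine ⟨b₀, hT a haT b₀ h1, ?_, ?_⟩
    · have := (mem_nn.1 h1).1
      rw [hsa] at this
      cases h2 : s b₀ <;> cases c <;> simp_all
    · intro a' ha'
      obtain ⟨_, hsa', hac'⟩ := hL a' ha'
      obtain ⟨b', hb'⟩ := Finset.card_eq_one.1 hac'
      rw [hb', c2 a' a b' b₀ (hsa'.trans hsa.symm) hb' hb₀]
  have sub : ∀ (L : Finset V) (b₀ : V), (∀ a ∈ L, nn H s a = {b₀}) → L ⊆ nn H s b₀ := by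
    intro L b₀ h a ha
    rw [nn_symm, h a ha]
    exact Finset.mem_singleton_self _
  rcases A₁.eq_empty_or_nonempty with hA0 | hA0
  · exfalso
    rcases B₁.eq_empty_or_nonempty with hB0 | hB0
    · rw [hA0, Finset.card_empty] at hA1
      rw [hB0, Finset.card_empty] at hB1
      omega
    · obtain ⟨a₀, ha₀T, ha₀s, ha₀⟩ := common true B₁ (fun a h => (memB₁ a).1 h) hB0
      have h1 := Finset.card_le_card (sub B₁ a₀ ha₀)
      have h2 := count2 A (fun a => (nn H s a).card) (fun a _ => c0' a) (a₀ := a₀)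
        (by rw [hA, Finset.mem_filter]; exact ⟨ha₀T, ha₀s⟩)
      rw [← hA₁, hA0, Finset.card_empty] at h2
      omega
  rcases B₁.eq_empty_or_nonempty with hB0 | hB0
  · exfalso
    obtain ⟨b₀, hb₀T, hb₀s, hb₀⟩ := common false A₁ (fun a h => (memA₁ a).1 h) hA0
    have h1 := Finset.card_le_card (sub A₁ b₀ hb₀)
    have h2 := count2 B (fun a => (nn H s a).card) (fun a _ => c0' a) (a₀ := b₀)
      (by rw [hB, Finset.mem_filter]; exact ⟨hb₀T, hb₀s⟩)
    rw [← hB₁, hB0, Finset.card_empty] at h2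
    omega
  obtain ⟨b₀, hb₀T, hb₀s, hb₀⟩ := common false A₁ (fun a h => (memA₁ a).1 h) hA0
  obtain ⟨a₀, ha₀T, ha₀s, ha₀⟩ := common true B₁ (fun a h => (memB₁ a).1 h) hB0
  have h1 := Finset.card_le_card (sub A₁ b₀ hb₀)
  have h2 := Finset.card_le_card (sub B₁ a₀ ha₀)
  have h3 := count2 A (fun a => (nn H s a).card) (fun a _ => c0' a) (a₀ := a₀)
    (by rw [hA, Finset.mem_filter]; exact ⟨ha₀T, ha₀s⟩)
  have h4 := count2 B (fun a => (nn H s a).card) (fun a _ => c0' a) (a₀ := b₀)
    (by rw [hB, Finset.mem_filter]; exact ⟨hb₀T, hb₀s⟩)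
  rw [← hA₁] at h3
  rw [← hB₁] at h4
  have e1 : nn H s b₀ = A₁ := (Finset.eq_of_subset_of_card_le (sub A₁ b₀ hb₀) (by omega)).symm
  have e2 : nn H s a₀ = B₁ := (Finset.eq_of_subset_of_card_le (sub B₁ a₀ ha₀) (by omega)).symm
  have hkl : 4 ≤ A₁.card + B₁.card := by omega
  have na : a₀ ∉ A₁ := by
    intro h
    have h5 := hb₀ a₀ h
    have h6 : b₀ ∈ B₁ := by
      rw [← e2, h5]
      exact Finset.mem_singleton_self _
    have h7 := ha₀ b₀ h6
    rw [e1] at h7
    rw [e2] at h5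
    rw [h7, h5, Finset.card_singleton, Finset.card_singleton] at hkl
    omega
  have nb : b₀ ∉ B₁ := by
    intro h
    have h5 := ha₀ b₀ h
    have h6 : a₀ ∈ A₁ := by
      rw [← e1, h5]
      exact Finset.mem_singleton_self _
    exact na h6
  have sA : ∀ a ∈ A₁, s a = false := fun a h => ((memA₁ a).1 h).2.1
  have sB : ∀ a ∈ B₁, s a = true := fun a h => ((memB₁ a).1 h).2.1
  exact two_stars hs sA sB ha₀s hb₀s na nb hA0 hB0 hb₀ ha₀ e1 e2

end Vale.Agent.P050.Tmpl
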