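import Vale.Agent.P050.Tmpl.Graph

/-!
Graphs with a vertex adjacent to the whole other side are star-grown.
-/

set_option linter.unusedSectionVars false

namespace Vale.Agent.P050.Tmpl

open Finset

variable {V : Type} [Fintype V] [DecidableEq V] {H : SimpleGraph V} {s : V → Bool}

/-- all other vertices of the other side, as leaves -/
theorem star_grown (hs : ∀ u v, H.Adj u v → s u ≠ s v) {y : V}
    (hy : ∀ u, s u ≠ s y → H.Adj u y) (A : Finset V) (hA : ∀ u ∈ A, s u ≠ s y) :
    ∃ C, StarGrown H (insert y A) C ∧ C y A := by
  induction A using Finset.induction_on with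
  | empty =>
    exact ⟨_, StarGrown.isolated y StarGrown.empty (by simp) (by simp), Or.inr ⟨rfl, rfl⟩⟩
  | insert a A ha ih =>
    obtain ⟨C, h1, h2⟩ := ih fun u hu => hA u (Finset.mem_insert_of_mem hu)
    have hsa := hA a (Finset.mem_insert_self _ _)
    have hay : a ≠ y := fun h => hsa (by rw [h])
    have hn : a ∉ insert y A := by
      rw [Finset.mem_insert]
      exact fun h => h.elim hay ha
    have h3 := StarGrown.leaf a y h1 hn (Finset.mem_insert_self _ _) (by
      intro x hx
      constructor
      · intro h
        rcases Finset.mem_insert.1 hx with h4 | h4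
        · exact h4
        · have h5 := hA x (Finset.mem_insert_of_mem h4)
          have h6 := hs _ _ h
          cases e1 : s a <;> cases e2 : s x <;> cases e3 : s y <;> simp_all
      · rintro rfl
        exact hy a hsa)
    rw [Finset.insert_comm] at h3
    exact ⟨_, h3, Or.inr (Or.inr ⟨rfl, A, h2, rfl⟩)⟩

/-- a graph with a vertex `y` adjacent to the whole other side is star-grown, and the whole other
side is a star at `y` -/
theorem starGrown_of_dominating' (hs : ∀ u v, H.Adj u v → s u ≠ s v) {y : V}
    (hy : ∀ u, s u ≠ s y → H.Adj u y) :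
    ∃ C, StarGrown H univ C ∧ C y (univ.filter fun u => s u ≠ s y) := by
  classical
  set A : Finset V := univ.filter fun u => s u ≠ s y with hA
  have memA : ∀ u, u ∈ A ↔ s u ≠ s y := fun u => by simp [hA]
  have key : ∀ B : Finset V, (∀ b ∈ B, b ≠ y ∧ s b = s y) →
      ∃ C, StarGrown H (B ∪ insert y A) C ∧ C y A := by
    intro B
    induction B using Finset.induction_on with
    | empty =>
      intro _
      rw [Finset.empty_union]
      exact star_grown hs hy A fun u hu => (memA u).1 hu
    | insert b B hb ih =>
      intro hB
      obtain ⟨C, h1, h2⟩ := ih fun u hu => hB u (Finset.mem_insert_of_mem hu)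
      obtain ⟨hby, hsb⟩ := hB b (Finset.mem_insert_self _ _)
      have hn : b ∉ B ∪ insert y A := by
        rw [Finset.mem_union, Finset.mem_insert, memA]
        rintro (h | h | h)
        · exact hb h
        · exact hby h
        · exact h hsb
      rw [Finset.insert_union]
      by_cases hne : ∃ x, H.Adj b x
      · set D := A.filter fun x => H.Adj b x with hD
        have hDA : D ⊆ A := Finset.filter_subset _ _
        have memD : ∀ x, x ∈ D ↔ H.Adj b x := by
          intro x
          rw [hD, Finset.mem_filter, memA]
          refine ⟨fun h => h.2, fun h => ⟨?_, h⟩⟩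
          have := hs _ _ h
          rw [hsb] at this
          exact this.symm
        obtain ⟨x, hx⟩ := hne
        exact ⟨_, StarGrown.copy b y A D h1 hn h2 hDA ⟨x, (memD x).2 hx⟩
          fun x _ => (memD x).symm, Or.inl h2⟩
      · exact ⟨_, StarGrown.isolated b h1 hn fun x _ h => hne ⟨x, h⟩, Or.inl h2⟩
  obtain ⟨C, h1, h3⟩ := key (univ.filter fun b => b ≠ y ∧ s b = s y) (by simp)
  have h2 : (univ.filter fun b => b ≠ y ∧ s b = s y) ∪ insert y A = univ := by
    ext u
    simp only [Finset.mem_union, Finset.mem_filter, Finset.mem_univ, true_and, Finset.mem_insert,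
      memA, iff_true]
    by_cases h3 : u = y
    · exact Or.inr (Or.inl h3)
    · by_cases h4 : s u = s y
      · exact Or.inl ⟨h3, h4⟩
      · exact Or.inr (Or.inr h4)
  rw [h2] at h1
  exact ⟨C, h1, h3⟩

/-- a graph with a vertex adjacent to the whole other side is star-grown -/
theorem starGrown_of_dominating (hs : ∀ u v, H.Adj u v → s u ≠ s v) {y : V}
    (hy : ∀ u, s u ≠ s y → H.Adj u y) : ∃ C, StarGrown H univ C := by
  obtain ⟨C, h, _⟩ := starGrown_of_dominating' hs hy
  exact ⟨C, h⟩

end Vale.Agent.P050.Tmpl
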