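import Vale.Agent.P050.Join.Star
import Vale.Agent.P050.Join.Copy

/-!
Extension of a law by one more variable, through a kernel.
-/

set_option linter.unusedSectionVars false

namespace Vale.Agent.P050.Tmpl

open Finset Vale.Agent.P050.Cart Vale.Agent.P050.Join

section ent

variable {Ω α β γ : Type} [Fintype Ω] [Fintype α] [Fintype β] [Fintype γ]

/-- functions that agree almost surely have the same entropy -/
theorem ent_ae {P : Ω → ℝ} {f g : Ω → α} (h : ∀ ω, P ω ≠ 0 → f ω = g ω) : ent P f = ent P g := by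
  classical
  refine ent_law fun a => ?_
  unfold mar
  refine Finset.sum_congr rfl fun ω _ => ?_
  by_cases h0 : P ω = 0
  · simp [h0]
  · rw [h ω h0]

theorem ent_le_pair {P : Ω → ℝ} (hP : ∀ ω, 0 ≤ P ω) (f : Ω → α) (g : Ω → β) :
    ent P g ≤ ent P (fun ω => (f ω, g ω)) := by
  rw [ent_eq, ent_eq, neg_le_neg_iff]
  refine Finset.sum_le_sum fun ω _ => ?_
  by_cases h0 : P ω = 0
  · simp [h0]
  refine mul_le_mul_of_nonneg_left ?_ (hP ω)
  have h1 : 0 < mar P (fun ω => (f ω, g ω)) (f ω, g ω) :=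
    lt_of_le_of_ne (mar_nonneg hP _ _) (Ne.symm (mar_ne_zero hP (fun ω => (f ω, g ω)) h0))
  refine Real.log_le_log h1 ?_
  rw [← mar_snd P f g]
  exact Finset.single_le_sum (f := fun a => mar P (fun ω => (f ω, g ω)) (a, g ω))
    (fun a _ => mar_nonneg hP _ _) (mem_univ (f ω))

/-- a function of `f` has smaller entropy -/
theorem ent_comp_le {P : Ω → ℝ} (hP : ∀ ω, 0 ≤ P ω) (f : Ω → α) (g : α → β) :
    ent P (fun ω => g (f ω)) ≤ ent P f := by
  refine (ent_le_pair hP f fun ω => g (f ω)).trans (le_of_eq ?_)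
  refine ent_fib fun ω ω' => ?_
  simp only [Prod.mk.injEq]
  exact ⟨fun h => h.1, fun h => ⟨h, by rw [h]⟩⟩

end ent

section ext

variable {Ω α β γ δ : Type} [Fintype Ω] [Fintype α] [Fintype β] [Fintype γ] [Fintype δ]

/-- one more variable, with conditional law `q` given `c` -/
def ext (P : Ω → ℝ) (c : Ω → δ) (q : δ → γ → ℝ) (x : Ω × γ) : ℝ := P x.1 * q (c x.1) x.2

variable {P : Ω → ℝ} (hP : ∀ ω, 0 ≤ P ω) {c : Ω → δ} {q : δ → γ → ℝ} (hq : ∀ d u, 0 ≤ q d u)
  (hs : ∀ ω, P ω ≠ 0 → ∑ u, q (c ω) u = 1)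

include hP hq in
theorem ext_nonneg (x : Ω × γ) : 0 ≤ ext P c q x := mul_nonneg (hP _) (hq _ _)

include hs in
theorem sum_ext_fst (F : Ω → ℝ) : ∑ x, ext P c q x * F x.1 = ∑ ω, P ω * F ω := by
  rw [Fintype.sum_prod_type]
  refine Finset.sum_congr rfl fun ω _ => ?_
  by_cases h0 : P ω = 0
  · simp [ext, h0]
  simp only [ext]
  rw [← Finset.sum_mul, ← Finset.mul_sum, hs ω h0, mul_one]

theorem sum_ext (F : Ω → γ → ℝ) :
    ∑ x, ext P c q x * F x.1 x.2 = ∑ ω, P ω * ∑ u, q (c ω) u * F ω u := by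
  rw [Fintype.sum_prod_type]
  refine Finset.sum_congr rfl fun ω _ => ?_
  simp only [ext]
  rw [Finset.mul_sum]
  exact Finset.sum_congr rfl fun u _ => by ring

include hs in
theorem ent_ext_fst (f : Ω → α) : ent (ext P c q) (fun x => f x.1) = ent P f :=
  ent_law fun a => mar_of_sum (fun F => sum_ext_fst hs fun ω => F (f ω)) a

include hs in
theorem ext_total (h1 : ∑ ω, P ω = 1) : ∑ x, ext P c q x = 1 := by
  have := sum_ext_fst (P := P) hs fun _ => 1
  simp only [mul_one] at this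
  rw [this, h1]

theorem mar_ext (d : δ) (u : γ) : mar (ext P c q) (fun x => (c x.1, x.2)) (d, u) =
    mar P c d * q d u := by
  classical
  unfold mar
  rw [Fintype.sum_prod_type, Finset.sum_mul]
  refine Finset.sum_congr rfl fun ω _ => ?_
  rw [Finset.sum_eq_single u]
  · by_cases h : c ω = d
    · rw [if_pos (show ((fun x : Ω × γ => (c x.1, x.2)) (ω, u)) = (d, u) by simp [h]), if_pos h]
      simp [ext, h]
    · rw [if_neg (fun h' => h (Prod.ext_iff.1 h').1), if_neg h, zero_mul]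
  · intro b _ hb
    rw [if_neg (fun h' => hb (Prod.ext_iff.1 h').2)]
  · intro h
    exact absurd (mem_univ _) h

include hP hq hs

/-- the entropy of the extended law -/
theorem ent_ext : ent (ext P c q) (fun x => x) = ent P (fun ω => ω) +
    (ent (ext P c q) (fun x => (c x.1, x.2)) - ent P c) := by
  rw [ent_eq, ent_eq (ext P c q) fun x => (c x.1, x.2), ← ent_ext_fst hs c,
    ← ent_ext_fst hs fun ω => ω, ent_eq, ent_eq]
  have hm : ∀ a, mar (ext P c q) (fun x => x.1) a = P a := by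
    intro a
    rw [← mar_id P a]
    exact mar_of_sum (fun F => sum_ext_fst hs fun ω => F ω) a
  have hc : ∀ a, mar (ext P c q) (fun x => c x.1) a = mar P c a := fun a =>
    mar_of_sum (fun F => sum_ext_fst hs fun ω => F (c ω)) a
  have h1 : ∀ x : Ω × γ, ext P c q x * Real.log (mar (ext P c q) (fun x => x) x) =
      ext P c q x * Real.log (mar (ext P c q) (fun x => x.1) x.1) +
      (ext P c q x * Real.log (mar (ext P c q) (fun x => (c x.1, x.2)) (c x.1, x.2)) -
        ext P c q x * Real.log (mar (ext P c q) (fun x => c x.1) (c x.1))) := by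
    intro x
    rw [mar_id, hm, hc, mar_ext]
    by_cases hx : ext P c q x = 0
    · simp [hx]
    have h2 : P x.1 ≠ 0 := fun h => hx (by simp [ext, h])
    have h3 : q (c x.1) x.2 ≠ 0 := fun h => hx (by simp [ext, h])
    have h4 : mar P c (c x.1) ≠ 0 := mar_ne_zero hP c h2
    unfold ext
    rw [Real.log_mul h2 h3, Real.log_mul h4 h3]
    ring
  rw [Finset.sum_congr rfl fun x _ => h1 x, Finset.sum_add_distrib, Finset.sum_sub_distrib]
  ring

theorem ent_ext_ge (f : Ω → α) : ent P f + (ent (ext P c q) (fun x => (c x.1, x.2)) - ent P c) ≤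
    ent (ext P c q) (fun x => (f x.1, x.2)) := by
  have h1 := ent_submod (ext_nonneg (c := c) hP hq) (fun x => x.1) (fun x => x.2) (fun x => f x.1)
  have h2 : ent (ext P c q) (fun x => (x.1, x.2, f x.1)) = ent (ext P c q) (fun x => x) := by
    refine ent_fib fun ω ω' => ?_
    simp only [Prod.ext_iff]
    exact ⟨fun h => ⟨h.1, h.2.1⟩, fun h => ⟨h.1, h.2, by rw [h.1]⟩⟩
  have h3 : ent (ext P c q) (fun x => (x.1, f x.1)) = ent P fun ω => ω := by
    rw [← ent_ext_fst hs fun ω => ω]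
    refine ent_fib fun ω ω' => ?_
    simp only [Prod.mk.injEq]
    exact ⟨fun h => h.1, fun h => ⟨h, by rw [h]⟩⟩
  have h4 : ent (ext P c q) (fun x => (x.2, f x.1)) = ent (ext P c q) (fun x => (f x.1, x.2)) := by
    refine ent_fib fun ω ω' => ?_
    simp only [Prod.mk.injEq]
    tauto
  rw [h2, h3, h4, ent_ext hP hq hs, ent_ext_fst hs f] at h1
  linarith

theorem ent_ext_le (f : Ω → α) (g : α → β) : ent (ext P c q) (fun x => (f x.1, x.2)) ≤
    ent P f + (ent (ext P c q) (fun x => (g (f x.1), x.2)) - ent P fun ω => g (f ω)) := by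
  have h1 := ent_submod (ext_nonneg (c := c) hP hq) (fun x => f x.1) (fun x => x.2)
    (fun x => g (f x.1))
  have h2 : ent (ext P c q) (fun x => (f x.1, x.2, g (f x.1))) =
      ent (ext P c q) (fun x => (f x.1, x.2)) := by
    refine ent_fib fun ω ω' => ?_
    simp only [Prod.mk.injEq]
    exact ⟨fun h => ⟨h.1, h.2.1⟩, fun h => ⟨h.1, h.2, by rw [h.1]⟩⟩
  have h3 : ent (ext P c q) (fun x => (f x.1, g (f x.1))) = ent P f := by
    rw [← ent_ext_fst hs f]
    refine ent_fib fun ω ω' => ?_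
    simp only [Prod.mk.injEq]
    exact ⟨fun h => h.1, fun h => ⟨h, by rw [h]⟩⟩
  have h4 : ent (ext P c q) (fun x => (x.2, g (f x.1))) =
      ent (ext P c q) (fun x => (g (f x.1), x.2)) := by
    refine ent_fib fun ω ω' => ?_
    simp only [Prod.mk.injEq]
    tauto
  rw [h2, h3, h4, ent_ext_fst hs fun ω => g (f ω)] at h1
  linarith

end ext

end Vale.Agent.P050.Tmpl
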