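import Vale.Agent.P050.Tmpl.Main
import Vale.Agent.P050.Join.Ex

/-!
Relative tensor products and substitutions, for graphs.
-/

set_option linter.unusedSectionVars false

namespace Vale.Agent.P050.Tmpl

open Finset Vale.Agent.P050.Lev Vale.Agent.P050.Cart Vale.Agent.P050.Join

section rel

variable {V VG : Type} [Fintype V] [DecidableEq V] [Fintype VG] [DecidableEq VG]
  {G : SimpleGraph VG} {t : VG → Bool} {H : SimpleGraph V} {s : V → Bool}
  {C : V → Finset V → Prop}

theorem one_le_sides (hG : ∀ u v, G.Adj u v → t u ≠ t v) (he : ∃ u v, G.Adj u v) (b : Bool) :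
    1 ≤ (univ.filter fun p => t p = b).card := by
  obtain ⟨u, v, huv⟩ := he
  have h1 := hG u v huv
  rw [Nat.one_le_iff_ne_zero, Finset.card_ne_zero]
  by_cases hu : t u = b
  · exact ⟨u, by simp [hu]⟩
  · refine ⟨v, ?_⟩
    rw [Finset.mem_filter]
    refine ⟨mem_univ _, ?_⟩
    cases b <;> cases h2 : t u <;> cases h3 : t v <;> simp_all

/-- **Relative tensor products.** -/
theorem rel_gsid (hG : GSid G t) (he : ∃ u v, G.Adj u v)
    (hc : ∀ b, (univ.filter fun p => t p = b).card ≤ Nat.card G.edgeSet)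
    (hs : ∀ u v, H.Adj u v → s u ≠ s v) (hH : StarGrown H univ C) (K : Finset V) :
    GSid (relTensor G t H s K) (relSide t s K) := by
  refine ⟨?_, ?_⟩
  · rintro (u | p) (v | q) h
    · exact hs _ _ h
    · exact hs _ _ h
    · exact hs _ _ h
    · exact hs _ _ h.2
  · have hcard := card_sideEdges G t hG.1
    exact rel_ksid hG.2 (one_le_sides hG.1 he false) (one_le_sides hG.1 he true)
      (by rw [hcard]; exact hc false) (by rw [hcard]; exact hc true) hH hs K

end rel

section subst

variable {V : Type} [Fintype V] [DecidableEq V] {H : SimpleGraph V} {s : V → Bool}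

/-- **Substitution.** Let `C` be a set of vertices of a bipartite graph `H` such that each vertex
outside `C` is adjacent to all or to none of the vertices of `C` on the other side; let `H[C]` be
Sidorenko with at least as many edges as vertices on either side, and let the graph obtained by
deleting all vertices of `C` except two adjacent ones be star-grown. Then `H` is Sidorenko. -/
theorem subst_main (hs : ∀ u v, H.Adj u v → s u ≠ s v) (C : Finset V)
    (hall : ∀ u, u ∉ C → (∀ v ∈ C, s v ≠ s u → H.Adj u v) ∨ ∀ v ∈ C, ¬ H.Adj u v)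
    (hC : GSid (H.induce (C : Set V)) fun v => s v)
    (hcard : ∀ b : Bool, (C.filter fun v => s v = b).card ≤
      Nat.card (H.induce (C : Set V)).edgeSet) {x y : V} (hx : x ∈ C) (hy : y ∈ C)
    (hxy : H.Adj x y) {D : {v : V // v ∉ C ∨ v = x ∨ v = y} →
      Finset {v : V // v ∉ C ∨ v = x ∨ v = y} → Prop}
    (hT : StarGrown (H.induce {v : V | v ∉ C ∨ v = x ∨ v = y}) univ D) : GSid H s := by
  classical
  refine ⟨hs, ?_⟩
  let V₀ := {v : V // v ∉ C ∨ v = x ∨ v = y}
  let H₀ : SimpleGraph V₀ := H.induce {v : V | v ∉ C ∨ v = x ∨ v = y}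
  let s₀ : V₀ → Bool := fun v => s v
  let t₀ : ↥(C : Set V) → Bool := fun v => s v
  let K : Finset V₀ := univ.filter fun v => (v : V) ∉ C
  have hK : ∀ v : V₀, v ∈ K ↔ (v : V) ∉ C := fun v => by simp [K]
  have hfil : ∀ b : Bool, (univ.filter fun c : (C : Set V) => s c = b).card =
      (C.filter fun v => s v = b).card := by
    intro b
    refine Finset.card_nbij (fun c => (c : V)) ?_ ?_ ?_
    · intro c hc
      rw [Finset.mem_coe, Finset.mem_filter] at hc ⊢
      exact ⟨c.2, hc.2⟩
    · intro c _ d _ h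
      exact Subtype.ext h
    · intro z hz
      rw [Finset.mem_coe, Finset.mem_filter] at hz
      exact ⟨⟨z, hz.1⟩, by simpa using hz.2, rfl⟩
  have key : GSid (relTensor (H.induce (C : Set V)) t₀ H₀ s₀ K) (relSide t₀ s₀ K) := by
    refine rel_gsid (H := H₀) (s := s₀) hC ⟨⟨x, hx⟩, ⟨y, hy⟩, hxy⟩ ?_
      (fun u v h => hs _ _ h) hT K
    intro b
    rw [hfil b]
    exact hcard b
  let i : ({v : V₀ // v ∈ K} ⊕ {p : ↥(C : Set V) × V₀ // p.2 ∉ K ∧ t₀ p.1 = s₀ p.2}) → V :=
    Sum.elim (fun v => (v : V₀)) (fun p => (p.1.1 : V))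
  have hnK : ∀ v : V₀, v ∉ K → (v : V) = x ∨ (v : V) = y := by
    intro v hv
    rw [hK, not_not] at hv
    exact v.2.resolve_left fun h => h hv
  have sxy := hs x y hxy
  have bi : Function.Bijective i := by
    constructor
    · rintro (u | p) (v | q) h
      · exact congrArg Sum.inl (Subtype.ext (Subtype.ext h))
      · have h1 := (hK _).1 u.2
        have h2 : (u : V₀) = (q.1.1 : V) := h
        rw [h2] at h1
        exact absurd q.1.1.2 h1
      · have h1 := (hK _).1 v.2
        have h2 : (p.1.1 : V) = (v : V₀) := h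
        rw [← h2] at h1
        exact absurd p.1.1.2 h1
      · have h1 : p.1.1 = q.1.1 := Subtype.ext h
        have h2 : s₀ p.1.2 = s₀ q.1.2 := by
          rw [← p.2.2, ← q.2.2, h1]
        have h3 : (p.1.2 : V) = q.1.2 := by
          have h2' : s (p.1.2 : V) = s (q.1.2 : V) := h2
          rcases hnK _ p.2.1 with h4 | h4 <;> rcases hnK _ q.2.1 with h5 | h5
          · rw [h4, h5]
          · rw [h4, h5] at h2'
            exact absurd h2' sxy
          · rw [h4, h5] at h2'
            exact absurd h2'.symm sxy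
          · rw [h4, h5]
        exact congrArg Sum.inr (Subtype.ext (Prod.ext h1 (Subtype.ext h3)))
    · intro v
      by_cases hv : v ∈ C
      · by_cases hsv : s v = s x
        · exact ⟨Sum.inr ⟨(⟨v, hv⟩, ⟨x, Or.inr (Or.inl rfl)⟩), by
            rw [hK, not_not]; exact hx, hsv⟩, rfl⟩
        · have hsv' : s v = s y := by
            cases h1 : s v <;> cases h2 : s x <;> cases h3 : s y <;> simp_all
          exact ⟨Sum.inr ⟨(⟨v, hv⟩, ⟨y, Or.inr (Or.inr rfl)⟩), by
            rw [hK, not_not]; exact hy, hsv'⟩, rfl⟩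
      · exact ⟨Sum.inl ⟨⟨v, Or.inl hv⟩, by rw [hK]; exact hv⟩, rfl⟩
  -- a vertex outside `C` does not distinguish the vertices of `C` on the same side
  have hsame : ∀ u, u ∉ C → ∀ v ∈ C, ∀ w ∈ C, s v = s w → H.Adj u v → H.Adj u w := by
    intro u hu v hv w hw hvw h
    rcases hall u hu with h1 | h1
    · exact h1 w hw (by rw [← hvw]; exact (hs u v h).symm)
    · exact absurd h (h1 v hv)
  have hadj : ∀ a b, H.Adj (i a) (i b) ↔
      (relTensor (H.induce (C : Set V)) t₀ H₀ s₀ K).Adj a b := by
    have hkey : ∀ (u : V) (_ : u ∉ C)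
        (q : {p : ↥(C : Set V) × V₀ // p.2 ∉ K ∧ t₀ p.1 = s₀ p.2}),
        H.Adj u (q.1.1 : V) ↔ H.Adj u (q.1.2 : V) := by
      intro u hu q
      have h1 : (q.1.2 : V) ∈ C := by
        have := q.2.1
        rw [hK, not_not] at this
        exact this
      have h2 : s (q.1.1 : V) = s (q.1.2 : V) := q.2.2
      exact ⟨hsame u hu _ q.1.1.2 _ h1 h2, hsame u hu _ h1 _ q.1.1.2 h2.symm⟩
    rintro (u | p) (v | q)
    · exact Iff.rfl
    · exact hkey _ ((hK _).1 u.2) q
    · have := hkey _ ((hK _).1 v.2) p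
      exact ⟨fun h => (this.1 h.symm).symm, fun h => (this.2 h.symm).symm⟩
    · constructor
      · intro h
        refine ⟨h, ?_⟩
        have h1 := hs _ _ h
        have h2 : s (p.1.2 : V) ≠ s (q.1.2 : V) := by
          have h3 : s (p.1.1 : V) = s (p.1.2 : V) := p.2.2
          have h4 : s (q.1.1 : V) = s (q.1.2 : V) := q.2.2
          rw [← h3, ← h4]
          exact h1
        change H.Adj (p.1.2 : V) (q.1.2 : V)
        rcases hnK _ p.2.1 with h4 | h4 <;> rcases hnK _ q.2.1 with h5 | h5
        · rw [h4, h5] at h2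
          exact absurd rfl h2
        · rw [h4, h5]
          exact hxy
        · rw [h4, h5]
          exact hxy.symm
        · rw [h4, h5] at h2
          exact absurd rfl h2
      · exact fun h => h.1
  have hside : ∀ a, s (i a) = relSide t₀ s₀ K a := by
    rintro (v | p)
    · rfl
    · exact p.2.2
  refine KSid.transport (Equiv.ofBijective i bi) key.2 ?_ hside
  intro a b
  change (i a, i b) ∈ sideEdges H s ↔ _
  simp only [sideEdges, Finset.mem_filter, Finset.mem_univ, true_and]
  rw [hadj, hside, hside]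

end subst

end Vale.Agent.P050.Tmpl
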