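import Vale.Agent.P050.Tmpl.Head

/-!
Star-grown graphs satisfy the two-sided Sidorenko inequality; some star-grown graphs.
-/

set_option linter.unusedSectionVars false

namespace Vale.Agent.P050.Tmpl

open Finset Vale.Agent.P050.Lev Vale.Agent.P050.Cart Vale.Agent.P050.Join

variable {V : Type} [Fintype V] [DecidableEq V] {H : SimpleGraph V} {s : V → Bool}

theorem TS.weaken {U Ω : Type} [Fintype U] [Fintype Ω] {m : Bool → U → ℝ} {π : U → U → ℝ}
    {S : Finset V} {C : V → Finset V → Prop} {P : Ω → ℝ} {Z : Ω → V → Option U}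
    (h : TS m π H s S C P Z) : TW m π H s S C P Z := by
  refine ⟨h.nonneg, h.total, h.out, fun ω _ => h.inn ω, h.vert, h.edge, ?_, h.star⟩
  have h1 := h.low ∅ (Finset.empty_subset _)
  rw [he_empty h.total, eb_empty, Finset.sum_empty] at h1
  push_cast at h1
  linarith

theorem starGrown_gsid (hs : ∀ u v, H.Adj u v → s u ≠ s v) {C : V → Finset V → Prop}
    (h : StarGrown H univ C) : GSid H s := by
  classical
  refine ⟨hs, ksid_of_sidLaw ?_ ?_⟩
  · intro e he
    unfold sideEdges at he
    exact (Finset.mem_filter.1 he).2.2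
  intro U _ m π m0 m1 pi0 row col
  have hb : Base m π := { m0 := m0, m1 := m1, pi0 := pi0, row := row, col := col }
  obtain ⟨Ω, _, P, Z, hT⟩ := h.exists_law hb hs
  exact hT.weaken.sidLaw hb

theorem StarExt.trans {V : Type} [DecidableEq V] {H : SimpleGraph V} {S₀ S₁ S₂ : Finset V}
    {C₀ C₁ C₂ : V → Finset V → Prop} (h₁ : StarExt H S₀ C₀ S₁ C₁) (h₂ : StarExt H S₁ C₁ S₂ C₂) :
    StarExt H S₀ C₀ S₂ C₂ := by
  induction h₂ with
  | base => exact h₁
  | isolated w _ hw hadj ih => exact StarExt.isolated w ih hw hadj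
  | leaf w v _ hw hv hadj ih => exact StarExt.leaf w v ih hw hv hadj
  | copy w v D₀ D _ hw hC hD hne hadj ih => exact StarExt.copy w v D₀ D ih hw hC hD hne hadj

/-- a star -/
theorem star_grown_on (hs : ∀ u v, H.Adj u v → s u ≠ s v) {y : V} (A : Finset V)
    (hA : ∀ u ∈ A, s u ≠ s y ∧ H.Adj u y) :
    ∃ C, StarGrown H (insert y A) C ∧ C y A := by
  induction A using Finset.induction_on with
  | empty =>
    exact ⟨_, StarGrown.isolated y StarGrown.empty (by simp) (by simp), Or.inr ⟨rfl, rfl⟩⟩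
  | insert a A ha ih =>
    obtain ⟨C, h1, h2⟩ := ih fun u hu => hA u (Finset.mem_insert_of_mem hu)
    obtain ⟨hsa, hya⟩ := hA a (Finset.mem_insert_self _ _)
    have hay : a ≠ y := fun h => hsa (by rw [h])
    have hn : a ∉ insert y A := by
      rw [Finset.mem_insert]
      exact fun h => h.elim hay ha
    have h3 := StarGrown.leaf a y h1 hn (Finset.mem_insert_self _ _) (by
      intro x hx
      constructor
      · intro h
        rcases Finset.mem_insert.1 hx with h4 | h4
        · exact h4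
        · have h5 := (hA x (Finset.mem_insert_of_mem h4)).1
          have h6 := hs _ _ h
          cases e1 : s a <;> cases e2 : s x <;> cases e3 : s y <;> simp_all
      · rintro rfl
        exact hya)
    rw [Finset.insert_comm] at h3
    exact ⟨_, h3, Or.inr (Or.inr ⟨rfl, A, h2, rfl⟩)⟩

/-- the disjoint union of a complete bipartite graph and an edge -/
theorem starGrown_union (hs : ∀ u v, H.Adj u v → s u ≠ s v) (A B : Finset V) {a₀ b₀ : V}
    (hA : ∀ a ∈ A, s a = false) (hB : ∀ b ∈ B, s b = true) (hAne : A.Nonempty) (hBne : B.Nonempty)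
    (hAB : ∀ a ∈ A, ∀ b ∈ B, H.Adj a b) (ha₀A : a₀ ∉ A) (hb₀B : b₀ ∉ B) (sa₀ : s a₀ = false)
    (sb₀ : s b₀ = true) (hab : H.Adj a₀ b₀) (ha₀ : ∀ b ∈ B, ¬ H.Adj a₀ b)
    (hb₀ : ∀ a ∈ A, ¬ H.Adj a b₀) (hall : ∀ v, v ∈ A ∨ v ∈ B ∨ v = a₀ ∨ v = b₀) :
    ∃ C, StarGrown H univ C := by
  classical
  obtain ⟨y, hy⟩ := hBne
  obtain ⟨x, hx⟩ := hAne
  have hne : ∀ {u v}, s u = false → s v = true → u ≠ v := by
    intro u v hu hv huv
    rw [huv, hv] at hu
    exact absurd hu (by decide)
  obtain ⟨C₀, h0, hC0⟩ := star_grown_on hs A (y := y) fun u hu =>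
    ⟨by rw [hA u hu, hB y hy]; decide, hAB u hu y hy⟩
  obtain ⟨C₁, h1, _⟩ := starExt_copies (H := H) (S₀ := insert y A) (C₀ := C₀) (B.erase y) (by
    rw [Finset.disjoint_left]
    intro b hb hb'
    rw [Finset.mem_erase] at hb
    rcases Finset.mem_insert.1 hb' with h | h
    · exact hb.1 h
    · exact hne (hA b h) (hB b hb.2) rfl) (by
    intro b hb
    rw [Finset.mem_erase] at hb
    refine ⟨y, A, hC0, ⟨x, Finset.mem_insert_of_mem hx, (hAB x hx b hb.2).symm⟩, ?_, ?_⟩
    · intro z hz hbz
      rcases Finset.mem_insert.1 hz with h | h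
      · subst h
        exact absurd ((hB b hb.2).trans (hB z hy).symm) (hs _ _ hbz)
      · exact h
    · intro z hz hbz
      rw [Finset.mem_erase] at hz
      exact hs _ _ hbz ((hB b hb.2).trans (hB z hz.2).symm))
  have h2 : StarExt H ∅ (fun _ _ => False) (B.erase y ∪ insert y A) C₁ := StarExt.trans h0 h1
  have hmem : ∀ v, v ∈ B.erase y ∪ insert y A ↔ v ∈ A ∨ v ∈ B := by
    intro v
    rw [Finset.mem_union, Finset.mem_erase, Finset.mem_insert]
    constructor
    · rintro (h | rfl | h)
      · exact Or.inr h.2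
      · exact Or.inr hy
      · exact Or.inl h
    · rintro (h | h)
      · exact Or.inr (Or.inr h)
      · by_cases h' : v = y
        · exact Or.inr (Or.inl h')
        · exact Or.inl ⟨h', h⟩
  have n1 : a₀ ∉ B.erase y ∪ insert y A := by
    rw [hmem]
    exact fun h => h.elim ha₀A fun h' => hne sa₀ (hB _ h') rfl
  have h3 := StarExt.isolated a₀ h2 n1 (by
    intro z hz
    rcases (hmem z).1 hz with h | h
    · exact fun h' => hs _ _ h' (sa₀.trans (hA z h).symm)
    · exact ha₀ z h)
  have n2 : b₀ ∉ insert a₀ (B.erase y ∪ insert y A) := by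
    rw [Finset.mem_insert, hmem]
    rintro (h | h | h)
    · exact hne sa₀ sb₀ h.symm
    · exact hne (hA _ h) sb₀ rfl
    · exact hb₀B h
  have h4 := StarExt.leaf b₀ a₀ h3 n2 (Finset.mem_insert_self _ _) (by
    intro z hz
    constructor
    · intro h
      rcases Finset.mem_insert.1 hz with h' | h'
      · exact h'
      · rcases (hmem z).1 h' with h'' | h''
        · exact absurd h.symm (hb₀ z h'')
        · exact absurd (sb₀.trans (hB z h'').symm) (hs _ _ h)
    · rintro rfl
      exact hab.symm)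
  have h5 : insert b₀ (insert a₀ (B.erase y ∪ insert y A)) = univ := by
    ext v
    simp only [Finset.mem_univ, iff_true]
    rw [Finset.mem_insert, Finset.mem_insert, hmem]
    rcases hall v with h | h | h | h
    · exact Or.inr (Or.inr (Or.inl h))
    · exact Or.inr (Or.inr (Or.inr h))
    · exact Or.inr (Or.inl h)
    · exact Or.inl h
  rw [h5] at h4
  exact ⟨_, h4⟩

end Vale.Agent.P050.Tmpl
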