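import Vale.Agent.P050.Tmpl.Rules
import Vale.Agent.P050.Tmpl.Defs

/-!
Existence of the law for star-grown graphs.
-/

set_option linter.unusedSectionVars false

namespace Vale.Agent.P050.Tmpl

open Finset Vale.Agent.P050.Cart Vale.Agent.P050.Join

variable {V U : Type} [Fintype V] [DecidableEq V] [Fintype U]

section grown

variable {H : SimpleGraph V} {S : Finset V} {C : V → Finset V → Prop}

theorem StarGrown.empty : StarGrown H ∅ fun _ _ => False := StarExt.base

theorem StarGrown.isolated (w : V) (h : StarGrown H S C) (hw : w ∉ S)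
    (hadj : ∀ x ∈ S, ¬ H.Adj w x) :
    StarGrown H (insert w S) fun a B => C a B ∨ (a = w ∧ B = ∅) := StarExt.isolated w h hw hadj

theorem StarGrown.leaf (w v : V) (h : StarGrown H S C) (hw : w ∉ S) (hv : v ∈ S)
    (hadj : ∀ x ∈ S, H.Adj w x ↔ x = v) : StarGrown H (insert w S) fun a B => C a B ∨
      (a = w ∧ B = {v}) ∨ (a = v ∧ ∃ D, C v D ∧ B = insert w D) := StarExt.leaf w v h hw hv hadj

theorem StarGrown.copy (w v : V) (D₀ D : Finset V) (h : StarGrown H S C) (hw : w ∉ S)
    (hC : C v D₀) (hD : D ⊆ D₀) (hne : D.Nonempty) (hadj : ∀ x ∈ S, H.Adj w x ↔ x ∈ D) :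
    StarGrown H (insert w S) fun a B => C a B ∨ (a = w ∧ B = D) ∨ (a ∈ D ∧ B = {w}) :=
  StarExt.copy w v D₀ D h hw hC hD hne hadj

end grown

theorem StarGrown.exists_law {m : Bool → U → ℝ} {π : U → U → ℝ} {H : SimpleGraph V}
    {s : V → Bool} {S : Finset V} {C : V → Finset V → Prop} (h : StarGrown H S C)
    (hb : Base m π) (hs : ∀ u v, H.Adj u v → s u ≠ s v) :
    ∃ (Ω : Type) (_ : Fintype Ω) (P : Ω → ℝ) (Z : Ω → V → Option U), TS m π H s S C P Z := by
  unfold StarGrown at h
  induction h with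
  | base => exact ⟨Unit, inferInstance, _, _, TS.empty m π H s⟩
  | isolated w _ hw hadj ih =>
    obtain ⟨Ω, i, P, Z, h⟩ := ih
    exact ⟨Ω × U, inferInstance, _, _, h.isolated hb hs hw hadj⟩
  | leaf w v _ hw hv hadj ih =>
    obtain ⟨Ω, i, P, Z, h⟩ := ih
    exact ⟨Ω × U, inferInstance, _, _, h.leaf hb hs hw hv hadj⟩
  | copy w v D₀ D _ hw hC hD hne hadj ih =>
    obtain ⟨Ω, i, P, Z, h⟩ := ih
    exact ⟨Ω × U, inferInstance, _, _, h.copy hb hs hw hC hD hne hadj⟩

section count

variable (H : SimpleGraph V) (s : V → Bool) (K : Finset V)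

open Classical in
/-- the edges with given membership of the ends in `K` -/
noncomputable def ec (a b : Bool) : ℕ :=
  (univ.filter fun e : V × V => (decide (e.1 ∈ K) = a ∧ decide (e.2 ∈ K) = b) ∧ H.Adj e.1 e.2 ∧
    s e.1 = false ∧ s e.2 = true).card

variable {H s K}

open Classical in
/-- the number of edges in a set of pairs is determined by the memberships -/
theorem eb_split (R : Finset V) (f : Bool → Bool → Bool)
    (hf : ∀ u v, s u = false → s v = true → ((u ∈ R ∧ v ∈ R) ↔
      f (decide (u ∈ K)) (decide (v ∈ K)) = true)) :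
    eb H s R = ∑ a : Bool, ∑ b : Bool, (if f a b then 1 else 0) * ec H s K a b := by
  unfold eb ec
  simp only [Finset.card_filter, Finset.mul_sum]
  rw [← Fintype.sum_prod_type' (f := fun a b : Bool => ∑ e : V × V, (if f a b then 1 else 0) *
    if (decide (e.1 ∈ K) = a ∧ decide (e.2 ∈ K) = b) ∧ H.Adj e.1 e.2 ∧ s e.1 = false ∧
      s e.2 = true then 1 else 0), Finset.sum_comm]
  refine Finset.sum_congr rfl fun e _ => ?_
  rw [Finset.sum_eq_single (decide (e.1 ∈ K), decide (e.2 ∈ K))]
  · simp only [true_and, and_self]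
    by_cases h1 : H.Adj e.1 e.2 ∧ s e.1 = false ∧ s e.2 = true
    · have h2 := hf e.1 e.2 h1.2.1 h1.2.2
      rw [if_pos h1, mul_one]
      by_cases h3 : f (decide (e.1 ∈ K)) (decide (e.2 ∈ K)) = true
      · rw [if_pos h3, if_pos ⟨h2.2 h3, h1⟩]
      · rw [if_neg h3, if_neg fun h4 => h3 (h2.1 h4.1)]
    · rw [if_neg h1, if_neg fun h4 => h1 h4.2, mul_zero]
  · rintro ⟨a, b⟩ _ hab
    refine mul_eq_zero_of_right _ (if_neg ?_)
    rintro ⟨⟨rfl, rfl⟩, _⟩
    exact hab rfl
  · intro h
    exact absurd (mem_univ _) h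

theorem eb_univ : eb H s univ = ec H s K false false + ec H s K false true +
    ec H s K true false + ec H s K true true := by
  rw [eb_split (K := K) univ (fun _ _ => true) (by simp)]
  simp
  ring

theorem eb_K : eb H s K = ec H s K true true := by
  rw [eb_split (K := K) K (fun a b => a && b) (by simp)]
  simp

theorem eb_f : eb H s (K ∪ sd s false univ) = ec H s K false true + ec H s K true true := by
  rw [eb_split (K := K) _ (fun _ b => b) (fun u v hu hv => by simp [mem_sd, hu, hv])]
  simp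
  ring

theorem eb_t : eb H s (K ∪ sd s true univ) = ec H s K true false + ec H s K true true := by
  rw [eb_split (K := K) _ (fun a _ => a) (fun u v hu hv => by simp [mem_sd, hu, hv])]
  simp
  ring

theorem eb_c : eb H s (univ \ K) = ec H s K false false := by
  rw [eb_split (K := K) _ (fun a b => !a && !b) (by simp)]
  simp

end count

end Vale.Agent.P050.Tmpl
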