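import Vale.Agent.P050.Tmpl.Count
import Vale.Agent.P050.Join.Main

/-!
Relative tensor products over star-grown graphs.
-/

set_option linter.unusedSectionVars false

namespace Vale.Agent.P050.Tmpl

open Finset Vale.Agent.P050.Lev Vale.Agent.P050.Cart Vale.Agent.P050.Join

theorem null_event {X : Type} [Fintype X] {L : X → ℝ} (h0 : ∀ x, 0 ≤ L x) {F : X → ℝ}
    (hF : ∀ x, 0 ≤ F x) (h : ∑ x, L x * F x = 0) {x : X} (hx : L x ≠ 0) : F x = 0 :=
  (mul_eq_zero.1 ((Finset.sum_eq_zero_iff_of_nonneg fun x _ => mul_nonneg (h0 x) (hF x)).1 h x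
    (mem_univ x))).resolve_left hx

theorem ite_nonneg {p : Prop} [Decidable p] : (0 : ℝ) ≤ if p then 1 else 0 := by
  split_ifs
  · exact zero_le_one
  · exact le_rfl

/-- the five bounds together -/
theorem combine' {n k e : ℕ} (hn : 1 ≤ n) (hk : 1 ≤ k) (hne : n ≤ e) (hke : k ≤ e)
    {a b c d I sK sX sY eK eX eY eZ : ℝ}
    (L0 : (sK + sX + sY) - a ≤ (eZ + eX + eY + eK) * I)
    (L1 : (sX + sY) - (a - b) ≤ (eZ + eX + eY) * I)
    (L2 : sX - (a - d) ≤ (eX + eZ) * I)
    (L3 : sY - (a - c) ≤ (eY + eZ) * I)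
    (L4 : c + d - b - a ≤ eZ * I) :
    (sK + n * sX + k * sY) - (eK + n * eX + k * eY + e * eZ) * I ≤
      b + (n * (c - b) + k * (d - b)) - e * (c + d - b - a) := by
  obtain ⟨p, q, t, w, h1, h2, h3⟩ : ∃ p q t w : ℕ, n = 1 + p + q ∧ k = 1 + p + t ∧
      e = 1 + p + q + t + w := by
    refine ⟨n + k - 1 - e, n - 1 - (n + k - 1 - e), k - 1 - (n + k - 1 - e),
      e + 1 + (n + k - 1 - e) - n - k, ?_, ?_, ?_⟩ <;> omega
  have g1 := mul_le_mul_of_nonneg_left L1 (Nat.cast_nonneg (α := ℝ) p)
  have g2 := mul_le_mul_of_nonneg_left L2 (Nat.cast_nonneg (α := ℝ) q)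
  have g3 := mul_le_mul_of_nonneg_left L3 (Nat.cast_nonneg (α := ℝ) t)
  have g4 := mul_le_mul_of_nonneg_left L4 (Nat.cast_nonneg (α := ℝ) w)
  rw [h1, h2, h3]
  push_cast
  linear_combination L0 + g1 + g2 + g3 + g4

section main

variable {V VG : Type} [Fintype V] [DecidableEq V] [Fintype VG] [DecidableEq VG]
  {G : SimpleGraph VG} {t : VG → Bool} {H : SimpleGraph V} {s : V → Bool}
  {C : V → Finset V → Prop}

/-- the vertices outside `K` on the side `b` -/
def tz (s : V → Bool) (K : Finset V) (b : Bool) : Finset V := univ.filter fun v => v ∉ K ∧ s v = b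

theorem mem_tz {K : Finset V} {b : Bool} {v : V} : v ∈ tz s K b ↔ v ∉ K ∧ s v = b := by
  simp [tz]

theorem sum_union_tz (K : Finset V) (b : Bool) (f : V → ℝ) :
    ∑ v ∈ K ∪ sd s b univ, f v = ∑ v ∈ K, f v + ∑ v ∈ tz s K b, f v := by
  have h1 : K ∪ sd s b univ = K ∪ tz s K b := by
    ext v
    simp only [Finset.mem_union, mem_sd, mem_tz, Finset.mem_univ, true_and]
    by_cases hv : v ∈ K <;> simp [hv]
  rw [h1, Finset.sum_union]
  rw [Finset.disjoint_left]
  intro v h2 h3
  exact (mem_tz.1 h3).1 h2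

theorem sum_univ_tz (K : Finset V) (f : V → ℝ) :
    ∑ v ∈ univ, f v = ∑ v ∈ K, f v + ∑ v ∈ tz s K false, f v + ∑ v ∈ tz s K true, f v := by
  have h1 : (univ : Finset V) = (K ∪ tz s K false) ∪ tz s K true := by
    ext v
    simp only [Finset.mem_union, mem_tz, Finset.mem_univ, true_iff]
    by_cases hv : v ∈ K
    · simp [hv]
    · cases hsv : s v <;> simp [hv]
  have h2 : ∑ v ∈ (K ∪ tz s K false) ∪ tz s K true, f v =
      ∑ v ∈ K, f v + ∑ v ∈ tz s K false, f v + ∑ v ∈ tz s K true, f v := by
    rw [Finset.sum_union, Finset.sum_union]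
    · rw [Finset.disjoint_left]
      intro v h2 h3
      exact (mem_tz.1 h3).1 h2
    · rw [Finset.disjoint_left]
      intro v h2 h3
      rw [Finset.mem_union, mem_tz] at h2
      rw [mem_tz] at h3
      rcases h2 with h2 | h2
      · exact h3.1 h2
      · rw [h2.2] at h3
        exact absurd h3.2 (by decide)
  rw [← h2, ← h1]

theorem sum_rel_hm (K : Finset V) (f : Bool → ℝ) : ∑ w : RV t s K, f (relSide t s K w) =
    ∑ v ∈ K, f (s v) + (univ.filter fun p => t p = false).card * ∑ v ∈ tz s K false, f (s v) +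
      (univ.filter fun p => t p = true).card * ∑ v ∈ tz s K true, f (s v) := by
  rw [sum_rel (t := t) (s := s) (K := K) (fun w => f (relSide t s K w)) (fun v => f (s v))
    (fun _ v => f (s v)) (fun v => rfl) (fun p => rfl)]
  have h1 : ∑ v ∈ K, f (s v) = ∑ v, if v ∈ K then f (s v) else 0 := by
    rw [Finset.sum_ite_mem, Finset.univ_inter]
  have h2 : ∀ b, ∑ v ∈ tz s K b, f (s v) = ∑ v, if v ∉ K ∧ s v = b then f (s v) else 0 := by
    intro b
    unfold tz
    rw [Finset.sum_filter]
  rw [h1, h2, h2, add_assoc]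
  congr 1
  rw [Finset.mul_sum, Finset.mul_sum, ← Finset.sum_add_distrib]
  refine Finset.sum_congr rfl fun v _ => ?_
  by_cases hv : v ∈ K
  · simp [hv]
  · rw [if_neg hv, ← Finset.sum_filter, Finset.sum_const, nsmul_eq_mul]
    cases hsv : s v <;> simp [hv]

/-- the kernel version of the main theorem -/
theorem rel_ksid (hG : KSid (sideEdges G t) t)
    (hn : 1 ≤ (univ.filter fun p => t p = false).card)
    (hk : 1 ≤ (univ.filter fun p => t p = true).card)
    (hne : (univ.filter fun p => t p = false).card ≤ (sideEdges G t).card)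
    (hke : (univ.filter fun p => t p = true).card ≤ (sideEdges G t).card)
    (hH : StarGrown H univ C) (hs : ∀ u v, H.Adj u v → s u ≠ s v) (K : Finset V) :
    KSid (sideEdges (relTensor G t H s K) (relSide t s K)) (relSide t s K) := by
  classical
  refine ksid_of_sidLaw ?_ ?_
  · intro e he
    unfold sideEdges at he
    exact (Finset.mem_filter.1 he).2.2
  intro U _ m π m0 m1 pi0 row col
  have hb : Base m π := { m0 := m0, m1 := m1, pi0 := pi0, row := row, col := col }
  obtain ⟨Ω, _, P, Z, hT⟩ := hH.exists_law hb hs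
  have hU : Nonempty U := by
    by_contra h
    rw [not_nonempty_iff] at h
    have := m1 false
    rw [Finset.univ_eq_empty, Finset.sum_empty] at this
    exact zero_ne_one this
  obtain ⟨u0⟩ := hU
  have hP := hT.nonneg
  set fn : Ω → (V → Option U) × (V → Option U) × (V → Option U) :=
    fun ω => (mz Z K ω, mz Z (tz s K false) ω, mz Z (tz s K true) ω) with hfn
  set L := mar P fn with hLdef
  have hL : ∀ ω, 0 ≤ L ω := mar_nonneg hP _
  have hL1 : ∑ ω, L ω = 1 := by rw [hLdef, mar_total, hT.total]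
  obtain ⟨μ, hμ⟩ := exists_mu hL hG
  set Λ := lam L μ with hΛ
  have hΛ0 : ∀ x, 0 ≤ Λ x := lam_nonneg hL hμ
  have hLP : ∀ F : (V → Option U) × (V → Option U) × (V → Option U) → ℝ,
      ∑ ω, L ω * F ω = ∑ ω, P ω * F (fn ω) := sum_mar P fn
  have q1 : ∀ F : (V → Option U) → ℝ, ∑ x, Λ x * F x.1 = ∑ ω, P ω * F (mz Z K ω) := by
    intro F
    rw [hΛ, sum_lam hL hμ F, hLP fun ω => F ω.1]
  have q2 : ∀ (p : VG) (F : (V → Option U) → (V → Option U) → ℝ),
      ∑ x, Λ x * F x.1 (x.2 p) = ∑ ω, P ω * F (mz Z K ω) (mz Z (tz s K (t p)) ω) := by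
    intro p F
    rw [hΛ, sum_lam_vertex hL hμ p F, hLP fun ω => F ω.1 (if t p then ω.2.2 else ω.2.1)]
    refine Finset.sum_congr rfl fun ω _ => ?_
    cases t p <;> simp [hfn]
  have q3 : ∀ e ∈ sideEdges G t, ∀ F : (V → Option U) → (V → Option U) → ℝ,
      ∑ x, Λ x * F (x.2 e.1) (x.2 e.2) =
        ∑ ω, P ω * F (mz Z (tz s K false) ω) (mz Z (tz s K true) ω) := by
    intro e he F
    rw [hΛ, sum_lam_edge hL hμ he fun _ => F, hLP fun ω => F ω.2.1 ω.2.2]
  let g : (V → Option U) × (VG → (V → Option U)) → (RV t s K → U) := fun x =>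
    Sum.elim (fun v => (x.1 v).getD u0) (fun p => (x.2 p.1.1 p.1.2).getD u0)
  have hsum : ∀ F : (RV t s K → U) → ℝ, ∑ z, mar Λ g z * F z = ∑ x, Λ x * F (g x) :=
    sum_mar Λ g
  have htz : ∀ p : {p : VG × V // p.2 ∉ K ∧ t p.1 = s p.2}, p.1.2 ∈ tz s K (t p.1.1) := fun p =>
    mem_tz.2 ⟨p.2.1, p.2.2.symm⟩
  have hvert : ∀ w : RV t s K, ∀ f : U → ℝ,
      ∑ z, mar Λ g z * f (z w) = ∑ x, m (relSide t s K w) x * f x := by
    intro w f
    rw [hsum fun z => f (z w)]
    rcases w with v | p
    · refine (q1 fun c => f ((c v).getD u0)).trans ?_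
      have h1 := hT.vert v (mem_univ _) fun o => f (o.getD u0)
      refine Eq.trans (Finset.sum_congr rfl fun ω _ => ?_) h1
      rw [mz_self v.2]
    · refine (q2 p.1.1 fun _ c => f ((c p.1.2).getD u0)).trans ?_
      have h1 := hT.vert p.1.2 (mem_univ _) fun o => f (o.getD u0)
      refine Eq.trans (Finset.sum_congr rfl fun ω _ => ?_) h1
      rw [mz_self (htz p)]
  refine ⟨mar Λ g, mar_nonneg hΛ0 _, ?_, hvert, ?_, ?_⟩
  · rw [mar_total]
    exact lam_total hL hμ hL1
  · rintro ⟨a, b⟩ he f
    unfold sideEdges at he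
    rw [Finset.mem_filter] at he
    obtain ⟨_, hadj, ha, hb'⟩ := he
    rw [hsum fun z => f (z a) (z b)]
    rcases a with u | p <;> rcases b with v | q
    · refine (q1 fun c => f ((c u).getD u0) ((c v).getD u0)).trans ?_
      have h1 := hT.edge u (mem_univ _) v (mem_univ _) hadj ha
        fun o o' => f (o.getD u0) (o'.getD u0)
      refine Eq.trans (Finset.sum_congr rfl fun ω _ => ?_) h1
      rw [mz_self u.2, mz_self v.2]
    · refine (q2 q.1.1 fun c d => f ((c u).getD u0) ((d q.1.2).getD u0)).trans ?_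
      have h1 := hT.edge u (mem_univ _) q.1.2 (mem_univ _) hadj ha
        fun o o' => f (o.getD u0) (o'.getD u0)
      refine Eq.trans (Finset.sum_congr rfl fun ω _ => ?_) h1
      rw [mz_self u.2, mz_self (htz q)]
    · refine (q2 p.1.1 fun c d => f ((d p.1.2).getD u0) ((c v).getD u0)).trans ?_
      have h1 := hT.edge p.1.2 (mem_univ _) v (mem_univ _) hadj ha
        fun o o' => f (o.getD u0) (o'.getD u0)
      refine Eq.trans (Finset.sum_congr rfl fun ω _ => ?_) h1
      rw [mz_self v.2, mz_self (htz p)]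
    · have ha' : t p.1.1 = false := p.2.2.trans ha
      have hb2 : t q.1.1 = true := q.2.2.trans hb'
      have hpq : (p.1.1, q.1.1) ∈ sideEdges G t := by
        unfold sideEdges
        rw [Finset.mem_filter]
        exact ⟨mem_univ _, hadj.1, ha', hb2⟩
      refine (q3 _ hpq fun c d => f ((c p.1.2).getD u0) ((d q.1.2).getD u0)).trans ?_
      have h1 := hT.edge p.1.2 (mem_univ _) q.1.2 (mem_univ _) hadj.2 ha
        fun o o' => f (o.getD u0) (o'.getD u0)
      have hp := htz p
      have hq := htz q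
      rw [ha'] at hp
      rw [hb2] at hq
      refine Eq.trans (Finset.sum_congr rfl fun ω _ => ?_) h1
      rw [mz_self hp, mz_self hq]
  · rw [tc_eq hvert, inf_eq hb, ent_mar]
    -- the entropy of the law
    have a1 : ∀ x, Λ x ≠ 0 → ∀ v, (x.1 v).isSome = decide (v ∈ K) := by
      intro x hx v
      by_contra h
      have h0 : (if ¬ (x.1 v).isSome = decide (v ∈ K) then (1 : ℝ) else 0) = 0 := by
        refine null_event hΛ0 (F := fun x => if ¬ (x.1 v).isSome = decide (v ∈ K) then 1 else 0)
          (fun x => ite_nonneg) ?_ hx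
        refine (q1 fun c => if ¬ (c v).isSome = decide (v ∈ K) then 1 else 0).trans ?_
        refine Finset.sum_eq_zero fun ω _ => mul_eq_zero_of_right _ (if_neg ?_)
        rw [not_not]
        by_cases hv : v ∈ K
        · rw [mz_self hv, hT.inn ω v (mem_univ v)]
          simp [hv]
        · simp [mz, hv]
      rw [if_pos h] at h0
      exact one_ne_zero h0
    have a2 : ∀ x, Λ x ≠ 0 → ∀ p v, (x.2 p v).isSome = decide (v ∉ K ∧ t p = s v) := by
      intro x hx p v
      by_contra h
      have h0 : (if ¬ (x.2 p v).isSome = decide (v ∉ K ∧ t p = s v) then (1 : ℝ) else 0) = 0 := by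
        refine null_event hΛ0
          (F := fun x => if ¬ (x.2 p v).isSome = decide (v ∉ K ∧ t p = s v) then 1 else 0)
          (fun x => ite_nonneg) ?_ hx
        refine (q2 p fun _ c => if ¬ (c v).isSome = decide (v ∉ K ∧ t p = s v) then 1
          else 0).trans ?_
        refine Finset.sum_eq_zero fun ω _ => mul_eq_zero_of_right _ (if_neg ?_)
        rw [not_not]
        by_cases hv : v ∈ tz s K (t p)
        · rw [mz_self hv, hT.inn ω v (mem_univ v)]
          rw [mem_tz] at hv
          simp [hv.1, hv.2]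
        · have hv' : ¬ (v ∉ K ∧ t p = s v) := fun h' => hv (mem_tz.2 ⟨h'.1, h'.2.symm⟩)
          unfold mz
          rw [if_neg hv, decide_eq_false hv']
          rfl
      rw [if_pos h] at h0
      exact one_ne_zero h0
    let dec : (RV t s K → U) → (V → Option U) × (VG → (V → Option U)) := fun z =>
      (fun v => if h : v ∈ K then some (z (Sum.inl ⟨v, h⟩)) else none,
        fun p v => if h : v ∉ K ∧ t p = s v then some (z (Sum.inr ⟨(p, v), h⟩)) else none)
    have a3 : ∀ x, Λ x ≠ 0 → x = dec (g x) := by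
      intro x hx
      refine Prod.ext ?_ ?_
      · funext v
        have h1 := a1 x hx v
        change x.1 v = if h : v ∈ K then some ((x.1 v).getD u0) else none
        by_cases hv : v ∈ K
        · rw [dif_pos hv]
          rw [decide_eq_true hv] at h1
          obtain ⟨y, hy⟩ := Option.isSome_iff_exists.1 h1
          rw [hy]
          rfl
        · rw [dif_neg hv]
          rw [decide_eq_false hv] at h1
          simpa using h1
      · funext p v
        have h1 := a2 x hx p v
        change x.2 p v = if h : v ∉ K ∧ t p = s v then some ((x.2 p v).getD u0) else none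
        by_cases hv : v ∉ K ∧ t p = s v
        · rw [dif_pos hv]
          rw [decide_eq_true hv] at h1
          obtain ⟨y, hy⟩ := Option.isSome_iff_exists.1 h1
          rw [hy]
          rfl
        · rw [dif_neg hv]
          rw [decide_eq_false hv] at h1
          simpa using h1
    have hent : ent Λ (fun x => x) ≤ ent Λ (fun x => g x) := by
      refine (ent_ae a3).trans_le ?_
      exact ent_comp_le hΛ0 g dec
    have key := ent_lam hL hμ
    have r1 : ent L (fun ω => ω.1) = he P Z K := ent_mar P fn _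
    have r2 : ∀ b : Bool, ent L (fun ω => (ω.1, if b then ω.2.2 else ω.2.1)) =
        he P Z (K ∪ sd s b univ) := by
      intro b
      rw [hLdef, ent_mar P fn]
      unfold he
      refine ent_fib fun ω ω' => ?_
      have h1 : ∀ ω, (if b = true then (fn ω).2.2 else (fn ω).2.1) = mz Z (tz s K b) ω := by
        intro ω
        cases b <;> simp [hfn]
      rw [h1, h1, Prod.mk.injEq, hfn, mz_eq, mz_eq, mz_eq]
      simp only [mem_tz, Finset.mem_union, mem_sd, Finset.mem_univ, true_and]
      constructor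
      · rintro ⟨h2, h3⟩ v hv
        by_cases hvK : v ∈ K
        · exact h2 v hvK
        · exact h3 v ⟨hvK, hv.resolve_left hvK⟩
      · exact fun h2 => ⟨fun v hv => h2 v (Or.inl hv), fun v hv => h2 v (Or.inr hv.2)⟩
    have r3 : ent L (fun ω => (ω.1, ω.2.1)) = he P Z (K ∪ sd s false univ) := by
      have := r2 false
      simpa using this
    have r4 : ent L (fun ω => (ω.1, ω.2.2)) = he P Z (K ∪ sd s true univ) := by
      have := r2 true
      simpa using this
    have r5 : ent L (fun ω => ω) = he P Z univ := by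
      rw [hLdef, ent_mar P fn]
      unfold he
      refine ent_fib fun ω ω' => ?_
      rw [hfn]
      simp only [Prod.mk.injEq, mz_eq, mem_tz, Finset.mem_univ, true_imp_iff]
      constructor
      · rintro ⟨h2, h3, h4⟩ v
        by_cases hvK : v ∈ K
        · exact h2 v hvK
        · cases hsv : s v
          · exact h3 v ⟨hvK, hsv⟩
          · exact h4 v ⟨hvK, hsv⟩
      · exact fun h2 => ⟨fun v _ => h2 v, fun v _ => h2 v, fun v _ => h2 v⟩
    rw [sum_side t fun b => ent L (fun ω => (ω.1, if b then ω.2.2 else ω.2.1)) -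
      ent L (fun ω => ω.1)] at key
    simp only [Bool.false_eq_true, if_false, if_true] at key
    rw [r1, r3, r4, r5] at key
    have b0 := hT.low ∅ (Finset.empty_subset _)
    have b1 := hT.low K (Finset.subset_univ _)
    have b2 := hT.low (K ∪ sd s true univ) (Finset.subset_univ _)
    have b3 := hT.low (K ∪ sd s false univ) (Finset.subset_univ _)
    have b4 := hT.mid K (Finset.subset_univ _)
    rw [he_empty hT.total, eb_empty, Finset.sum_empty] at b0
    rw [eb_univ (K := K), sum_univ_tz (s := s) K] at b0 b1 b2 b3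
    rw [eb_K] at b1
    rw [eb_t, sum_union_tz] at b2
    rw [eb_f, sum_union_tz] at b3
    rw [eb_c] at b4
    push_cast at b0 b1 b2 b3 b4
    have key2 := combine' hn hk hne hke
      (a := he P Z univ) (b := he P Z K) (c := he P Z (K ∪ sd s false univ))
      (d := he P Z (K ∪ sd s true univ)) (I := ii m π) (sK := ∑ v ∈ K, hm m (s v))
      (sX := ∑ v ∈ tz s K false, hm m (s v)) (sY := ∑ v ∈ tz s K true, hm m (s v))
      (eK := (ec H s K true true : ℝ)) (eX := (ec H s K false true : ℝ))
      (eY := (ec H s K true false : ℝ)) (eZ := (ec H s K false false : ℝ))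
      (by linear_combination b0) (by linear_combination b1) (by linear_combination b2)
      (by linear_combination b3) b4
    rw [card_rel, sum_rel_hm K (hm m)]
    push_cast
    linarith

end main

end Vale.Agent.P050.Tmpl
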