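import Vale.Agent.P050.Tmpl.WeakMap
import Vale.Agent.P050.Tmpl.Ex

/-!
Relative tensor products, extended by copies; the extended join theorem.
-/

set_option linter.unusedSectionVars false

namespace Vale.Agent.P050.Tmpl

open Finset Vale.Agent.P050.Lev Vale.Agent.P050.Cart Vale.Agent.P050.Join

section ext

variable {V V₀ VG : Type} [Fintype V] [DecidableEq V] [Fintype V₀] [DecidableEq V₀] [Fintype VG]
  [DecidableEq VG] {G : SimpleGraph VG} {t : VG → Bool} {H₀ : SimpleGraph V₀} {s₀ : V₀ → Bool}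
  {D₀ : V₀ → Finset V₀ → Prop} {H : SimpleGraph V} {s : V → Bool}

/-- **Extended relative tensor products.** -/
theorem ext_gsid (hG : GSid G t) (he : ∃ u v, G.Adj u v)
    (hc : ∀ b, (univ.filter fun p => t p = b).card ≤ Nat.card G.edgeSet)
    (hs₀ : ∀ u v, H₀.Adj u v → s₀ u ≠ s₀ v) (hH₀ : StarGrown H₀ univ D₀) (K : Finset V₀)
    (hs : ∀ u v, H.Adj u v → s u ≠ s v) {f : RV t s₀ K → V} (hf : Function.Injective f)
    (hadj : ∀ a b, H.Adj (f a) (f b) ↔ (relTensor G t H₀ s₀ K).Adj a b)
    (hside : ∀ a, s (f a) = relSide t s₀ K a) {D : V → Finset V → Prop}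
    (hD : StarExt H (univ.image f)
      (fun v B => ∃ a A, LiftStar G t s₀ K D₀ a A ∧ v = f a ∧ B = A.image f) univ D) :
    GSid H s := by
  classical
  refine ⟨hs, ksid_of_sidLaw ?_ ?_⟩
  · intro e he
    unfold sideEdges at he
    exact (Finset.mem_filter.1 he).2.2
  intro U _ m π m0 m1 pi0 row col
  have hb : Base m π := { m0 := m0, m1 := m1, pi0 := pi0, row := row, col := col }
  have hcard := card_sideEdges G t hG.1
  obtain ⟨Ω, _, P, Z, h⟩ := rel_law hG.2 (one_le_sides hG.1 he false) (one_le_sides hG.1 he true)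
    (by rw [hcard]; exact hc false) (by rw [hcard]; exact hc true) hG.1 hH₀ hs₀ K hb
  obtain ⟨Ω', _, P', Z', h'⟩ := hD.exists_law hb hs ⟨Ω, inferInstance, P, zf f Z, h.map hf hadj hside⟩
  exact h'.sidLaw hb

end ext

section mono

variable {V : Type} [DecidableEq V] {H : SimpleGraph V} {S₀ : Finset V} {C₀ : V → Finset V → Prop}

/-- copies of stars of the base graph, one after the other -/
theorem starExt_copies (R : Finset V) (hR : Disjoint R S₀)
    (h : ∀ b ∈ R, ∃ v B, C₀ v B ∧ (∃ x ∈ S₀, H.Adj b x) ∧ (∀ x ∈ S₀, H.Adj b x → x ∈ B) ∧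
      ∀ x ∈ R, ¬ H.Adj b x) :
    ∃ C, StarExt H S₀ C₀ (R ∪ S₀) C ∧ ∀ v B, C₀ v B → C v B := by
  classical
  have key : ∀ T ⊆ R, ∃ C, StarExt H S₀ C₀ (T ∪ S₀) C ∧ ∀ v B, C₀ v B → C v B := by
    intro T
    induction T using Finset.induction_on with
    | empty =>
      intro _
      rw [Finset.empty_union]
      exact ⟨C₀, StarExt.base, fun _ _ h => h⟩
    | insert b T hb ih =>
      intro hT
      obtain ⟨C, h1, h2⟩ := ih ((Finset.subset_insert _ _).trans hT)
      have hbR : b ∈ R := hT (Finset.mem_insert_self _ _)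
      obtain ⟨v, B, hC, ⟨x₀, hx₀, hbx⟩, hsub, hno⟩ := h b hbR
      have hn : b ∉ T ∪ S₀ := by
        rw [Finset.mem_union]
        exact fun h' => h'.elim hb fun h'' => Finset.disjoint_left.1 hR hbR h''
      rw [Finset.insert_union]
      refine ⟨_, StarExt.copy b v B (S₀.filter fun x => H.Adj b x) h1 hn (h2 v B hC) ?_
        ⟨x₀, by rw [Finset.mem_filter]; exact ⟨hx₀, hbx⟩⟩ ?_, fun v B h' => Or.inl (h2 v B h')⟩
      · intro x hx
        rw [Finset.mem_filter] at hx
        exact hsub x hx.1 hx.2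
      · intro x hx
        rw [Finset.mem_filter]
        constructor
        · intro h'
          rcases Finset.mem_union.1 hx with h'' | h''
          · exact absurd h' (hno x (hT (Finset.mem_insert_of_mem h'')))
          · exact ⟨h'', h'⟩
        · exact fun h' => h'.2
  exact key R (Finset.Subset.refl _)

end mono

section plus

variable {V : Type} [Fintype V] [DecidableEq V] {H : SimpleGraph V} {s : V → Bool}

/-- **The extended join theorem.** Let `C` be a set of vertices such that `H[C]` satisfies the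
two-sided Sidorenko inequality and has at least as many edges as vertices on either side, at least
one; let the vertices outside `C` on the side `false` be adjacent to all vertices of `C` on the side
`true`, and let each vertex outside `C` on the side `true` be adjacent to all, to none, or to exactly
one (not isolated in `H[C]`) of the vertices of `C` on the side `false`. Then `H` satisfies the
two-sided Sidorenko inequality. -/
theorem join_plus (hs : ∀ u v, H.Adj u v → s u ≠ s v) (C : Finset V)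
    (hA : ∀ u, u ∉ C → s u = false → ∀ v ∈ C, s v = true → H.Adj u v)
    (hB : ∀ u, u ∉ C → s u = true → (∀ v ∈ C, s v = false → H.Adj u v) ∨
      (∀ v ∈ C, ¬ H.Adj u v) ∨ ∃ v ∈ C, ∃ w ∈ C, H.Adj v w ∧ ∀ z ∈ C, H.Adj u z ↔ z = v)
    (hC : GSid (H.induce (C : Set V)) fun v => s v)
    (he : ∃ u ∈ C, ∃ v ∈ C, H.Adj u v)
    (hcard : ∀ b : Bool, (C.filter fun v => s v = b).card ≤
      Nat.card (H.induce (C : Set V)).edgeSet) :
    GSid H s := by
  classical
  obtain ⟨x, hx, y, hy, hxy, hsx, hsy⟩ : ∃ x ∈ C, ∃ y ∈ C, H.Adj x y ∧ s x = false ∧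
      s y = true := by
    obtain ⟨u, hu, v, hv, huv⟩ := he
    have h1 := hs u v huv
    cases hsu : s u <;> cases hsv : s v
    · exact absurd (hsu.trans hsv.symm) h1
    · exact ⟨u, hu, v, hv, huv, hsu, hsv⟩
    · exact ⟨v, hv, u, hu, huv.symm, hsv, hsu⟩
    · exact absurd (hsu.trans hsv.symm) h1
  -- the vertices outside `C` that do not distinguish the vertices of `C`
  let Tm : V → Prop := fun v => v ∉ C ∧ (s v = false ∨ (∀ z ∈ C, s z = false → H.Adj v z) ∨
    ∀ z ∈ C, ¬ H.Adj v z)
  let T₀ : Set V := {v | Tm v ∨ v = x ∨ v = y}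
  let V₀ := {v : V // Tm v ∨ v = x ∨ v = y}
  let H₀ : SimpleGraph V₀ := H.induce T₀
  let s₀ : V₀ → Bool := fun v => s v
  let t₀ : ↥(C : Set V) → Bool := fun v => s v
  let K : Finset V₀ := univ.filter fun v => (v : V) ∉ C
  have hK : ∀ v : V₀, v ∈ K ↔ (v : V) ∉ C := fun v => by simp [K]
  have hKT : ∀ v : V₀, v ∈ K → Tm v := by
    intro v hv
    rw [hK] at hv
    rcases v.2 with h | h | h
    · exact h
    · exact absurd (by rw [h]; exact hx) hv
    · exact absurd (by rw [h]; exact hy) hv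
  have hnK : ∀ v : V₀, v ∉ K → (v : V) = x ∨ (v : V) = y := by
    intro v hv
    rw [hK, not_not] at hv
    exact v.2.resolve_left fun h => h.1 hv
  have hs₀ : ∀ u v, H₀.Adj u v → s₀ u ≠ s₀ v := fun u v h => hs _ _ h
  let y₀ : V₀ := ⟨y, Or.inr (Or.inr rfl)⟩
  let x₀ : V₀ := ⟨x, Or.inr (Or.inl rfl)⟩
  have hdom : ∀ u : V₀, s₀ u ≠ s₀ y₀ → H₀.Adj u y₀ := by
    intro u hu
    have hu' : s (u : V) = false := by
      have h1 : s (u : V) ≠ s y := hu
      rw [hsy] at h1
      cases h2 : s (u : V)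
      · rfl
      · exact absurd h2 h1
    change H.Adj (u : V) y
    rcases u.2 with h | h | h
    · exact hA _ h.1 hu' y hy hsy
    · rw [h]
      exact hxy
    · rw [h, hsy] at hu'
      exact absurd hu' (by decide)
  obtain ⟨D₀, hD₀, hstar⟩ := starGrown_of_dominating' hs₀ hdom
  have hfil : ∀ b : Bool, (univ.filter fun c : (C : Set V) => t₀ c = b).card =
      (C.filter fun v => s v = b).card := by
    intro b
    refine Finset.card_nbij (fun c => (c : V)) ?_ ?_ ?_
    · intro c hc
      rw [Finset.mem_coe, Finset.mem_filter] at hc ⊢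
      exact ⟨c.2, hc.2⟩
    · intro c _ d _ h
      exact Subtype.ext h
    · intro z hz
      rw [Finset.mem_coe, Finset.mem_filter] at hz
      exact ⟨⟨z, hz.1⟩, by simpa using hz.2, rfl⟩
  let f : RV t₀ s₀ K → V := Sum.elim (fun v => (v : V₀)) (fun p => (p.1.1 : V))
  have sxy : s x ≠ s y := hs x y hxy
  have hf : Function.Injective f := by
    rintro (u | p) (v | q) h
    · exact congrArg Sum.inl (Subtype.ext (Subtype.ext h))
    · have h1 := (hK _).1 u.2
      have h2 : (u : V₀) = (q.1.1 : V) := h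
      rw [h2] at h1
      exact absurd q.1.1.2 h1
    · have h1 := (hK _).1 v.2
      have h2 : (p.1.1 : V) = (v : V₀) := h
      rw [← h2] at h1
      exact absurd p.1.1.2 h1
    · have h1 : p.1.1 = q.1.1 := Subtype.ext h
      have h2 : s₀ p.1.2 = s₀ q.1.2 := by
        rw [← p.2.2, ← q.2.2, h1]
      have h3 : (p.1.2 : V) = q.1.2 := by
        have h2' : s (p.1.2 : V) = s (q.1.2 : V) := h2
        rcases hnK _ p.2.1 with h4 | h4 <;> rcases hnK _ q.2.1 with h5 | h5
        · rw [h4, h5]
        · rw [h4, h5] at h2'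
          exact absurd h2' sxy
        · rw [h4, h5] at h2'
          exact absurd h2'.symm sxy
        · rw [h4, h5]
      exact congrArg Sum.inr (Subtype.ext (Prod.ext h1 (Subtype.ext h3)))
  -- a vertex of `K` does not distinguish the vertices of `C` on the same side
  have hsame : ∀ u, Tm u → ∀ v ∈ C, ∀ w ∈ C, s v = s w → H.Adj u v → H.Adj u w := by
    intro u hu v hv w hw hvw h
    have h0 := hs u v h
    rcases hu.2 with h1 | h1 | h1
    · refine hA u hu.1 h1 w hw ?_
      rw [← hvw]
      rw [h1] at h0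
      cases h2 : s v
      · exact absurd h2.symm h0
      · rfl
    · refine h1 w hw ?_
      have hsu : s u = true := by
        cases h2 : s u
        · exfalso
          have h3 : s v ≠ s u := h0.symm
          rw [h2] at h3
          have h4 : s v = true := by
            cases h5 : s v
            · exact absurd h5 h3
            · rfl
          -- then `u` is on the side `false`, and adjacent to `x` on the side `false`
          exact hs u x (h1 x hx hsx) (h2.trans hsx.symm)
        · rfl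
      rw [← hvw]
      rw [hsu] at h0
      cases h2 : s v
      · rfl
      · exact absurd h2.symm h0
    · exact absurd h (h1 v hv)
  have hadj : ∀ a b, H.Adj (f a) (f b) ↔
      (relTensor (H.induce (C : Set V)) t₀ H₀ s₀ K).Adj a b := by
    have hkey : ∀ (u : V) (_ : Tm u)
        (q : {p : ↥(C : Set V) × V₀ // p.2 ∉ K ∧ t₀ p.1 = s₀ p.2}),
        H.Adj u (q.1.1 : V) ↔ H.Adj u (q.1.2 : V) := by
      intro u hu q
      have h1 : (q.1.2 : V) ∈ C := by
        have := q.2.1
        rw [hK, not_not] at this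
        exact this
      have h2 : s (q.1.1 : V) = s (q.1.2 : V) := q.2.2
      exact ⟨hsame u hu _ q.1.1.2 _ h1 h2, hsame u hu _ h1 _ q.1.1.2 h2.symm⟩
    rintro (u | p) (v | q)
    · exact Iff.rfl
    · exact hkey _ (hKT _ u.2) q
    · have := hkey _ (hKT _ v.2) p
      exact ⟨fun h => (this.1 h.symm).symm, fun h => (this.2 h.symm).symm⟩
    · constructor
      · intro h
        refine ⟨h, ?_⟩
        have h1 := hs _ _ h
        have h2 : s (p.1.2 : V) ≠ s (q.1.2 : V) := by
          have h3 : s (p.1.1 : V) = s (p.1.2 : V) := p.2.2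
          have h4 : s (q.1.1 : V) = s (q.1.2 : V) := q.2.2
          rw [← h3, ← h4]
          exact h1
        change H.Adj (p.1.2 : V) (q.1.2 : V)
        rcases hnK _ p.2.1 with h4 | h4 <;> rcases hnK _ q.2.1 with h5 | h5
        · rw [h4, h5] at h2
          exact absurd rfl h2
        · rw [h4, h5]
          exact hxy
        · rw [h4, h5]
          exact hxy.symm
        · rw [h4, h5] at h2
          exact absurd rfl h2
      · exact fun h => h.1
  have hside : ∀ a, s (f a) = relSide t₀ s₀ K a := by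
    rintro (v | p)
    · rfl
    · exact p.2.2
  -- the image of `f`
  have himC : ∀ v ∈ C, v ∈ univ.image f := by
    intro v hv
    rw [Finset.mem_image]
    by_cases hsv : s v = s x
    · exact ⟨Sum.inr ⟨(⟨v, hv⟩, x₀), by rw [hK, not_not]; exact hx, hsv⟩, mem_univ _, rfl⟩
    · have hsv' : s v = s y := by
        cases h1 : s v <;> cases h2 : s x <;> cases h3 : s y <;> simp_all
      exact ⟨Sum.inr ⟨(⟨v, hv⟩, y₀), by rw [hK, not_not]; exact hy, hsv'⟩, mem_univ _, rfl⟩
  have himT : ∀ v, Tm v → v ∈ univ.image f := by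
    intro v hv
    rw [Finset.mem_image]
    exact ⟨Sum.inl ⟨⟨v, Or.inl hv⟩, by rw [hK]; exact hv.1⟩, mem_univ _, rfl⟩
  have him : ∀ v, v ∈ univ.image f → v ∈ C ∨ Tm v := by
    intro v hv
    obtain ⟨a, _, rfl⟩ := Finset.mem_image.1 hv
    rcases a with u | p
    · exact Or.inr (hKT _ u.2)
    · exact Or.inl p.1.1.2
  -- the remaining vertices
  set S₀ : Finset V := univ.image f with hS₀
  have hrest : ∀ b, b ∉ S₀ → b ∉ C ∧ s b = true ∧
      ∃ v ∈ C, ∃ w ∈ C, H.Adj v w ∧ ∀ z ∈ C, H.Adj b z ↔ z = v := by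
    intro b hb
    have hbC : b ∉ C := fun h => hb (himC b h)
    have hbT : ¬ Tm b := fun h => hb (himT b h)
    have hsb : s b = true := by
      cases h : s b
      · exact absurd ⟨hbC, Or.inl h⟩ hbT
      · rfl
    refine ⟨hbC, hsb, ?_⟩
    rcases hB b hbC hsb with h | h | h
    · exact absurd ⟨hbC, Or.inr (Or.inl h)⟩ hbT
    · exact absurd ⟨hbC, Or.inr (Or.inr h)⟩ hbT
    · exact h
  obtain ⟨D, hD, _⟩ := starExt_copies (H := H) (S₀ := S₀)
    (C₀ := fun v B => ∃ a A, LiftStar (H.induce (C : Set V)) t₀ s₀ K D₀ a A ∧ v = f a ∧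
      B = A.image f) (univ \ S₀) Finset.sdiff_disjoint (by
    intro b hb
    have hbS : b ∉ S₀ := (Finset.mem_sdiff.1 hb).2
    obtain ⟨hbC, hsb, p, hp, q, hq, hpq, hbz⟩ := hrest b hbS
    have hbp : H.Adj b p := (hbz p hp).2 rfl
    have hsp : s p = false := by
      have := hs _ _ hbp
      rw [hsb] at this
      cases h : s p
      · rfl
      · exact absurd h.symm this
    have hsq : s q = true := by
      have := hs _ _ hpq
      rw [hsp] at this
      cases h : s q
      · exact absurd h.symm this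
      · rfl
    obtain ⟨B, hB'⟩ : ∃ B : Finset (RV t₀ s₀ K), ∀ r, r ∈ B ↔
        ∃ w ∈ (univ.filter fun u => s₀ u ≠ s₀ y₀),
          Lift (⟨p, hp⟩ : ↥(C : Set V)) ⟨q, hq⟩ w r :=
      ⟨(Set.toFinite {r | ∃ w ∈ (univ.filter fun u => s₀ u ≠ s₀ y₀),
        Lift (⟨p, hp⟩ : ↥(C : Set V)) ⟨q, hq⟩ w r}).toFinset, fun r => by
          rw [Set.Finite.mem_toFinset]
          exact Iff.rfl⟩
    refine ⟨q, B.image f, ?_, ⟨p, himC p hp, hbp⟩, ?_, ?_⟩
    · exact ⟨Sum.inr ⟨(⟨q, hq⟩, y₀), by rw [hK, not_not]; exact hy, hsq.trans hsy.symm⟩, B,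
        ⟨⟨p, hp⟩, ⟨q, hq⟩, hpq, y₀, _, hstar, ⟨rfl, Or.inr rfl⟩, hB'⟩, rfl, rfl⟩
    · intro z hz hbz'
      have hsz : s z = false := by
        have := hs _ _ hbz'
        rw [hsb] at this
        cases h : s z
        · rfl
        · exact absurd h.symm this
      rw [Finset.mem_image]
      rcases him z hz with h | h
      · have hzp : z = p := (hbz z h).1 hbz'
        subst hzp
        refine ⟨Sum.inr ⟨(⟨z, hp⟩, x₀), by rw [hK, not_not]; exact hx, hsz.trans hsx.symm⟩, ?_, rfl⟩
        rw [hB']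
        refine ⟨x₀, ?_, rfl, Or.inl rfl⟩
        rw [Finset.mem_filter]
        exact ⟨mem_univ _, sxy⟩
      · refine ⟨Sum.inl ⟨⟨z, Or.inl h⟩, by rw [hK]; exact h.1⟩, ?_, rfl⟩
        rw [hB']
        refine ⟨⟨z, Or.inl h⟩, ?_, rfl⟩
        rw [Finset.mem_filter]
        refine ⟨mem_univ _, ?_⟩
        change s z ≠ s y
        rw [hsz, hsy]
        decide
    · intro z hz hbz'
      have hz' := hrest z (Finset.mem_sdiff.1 hz).2
      exact hs _ _ hbz' (hsb.trans hz'.2.1.symm))
  have hD' : StarExt H S₀ (fun v B => ∃ a A, LiftStar (H.induce (C : Set V)) t₀ s₀ K D₀ a A ∧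
      v = f a ∧ B = A.image f) univ D := by
    have : univ \ S₀ ∪ S₀ = univ := Finset.sdiff_union_of_subset (Finset.subset_univ S₀)
    rw [this] at hD
    exact hD
  exact ext_gsid hC ⟨⟨x, hx⟩, ⟨y, hy⟩, hxy⟩ (fun b => by rw [hfil b]; exact hcard b) hs₀ hD₀ K hs hf
    hadj hside hD'

end plus

end Vale.Agent.P050.Tmpl
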