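import Vale.Agent.P050.Tmpl.Ext

/-!
Laws on a growing vertex set.
-/

set_option linter.unusedSectionVars false

namespace Vale.Agent.P050.Tmpl

open Finset Vale.Agent.P050.Cart Vale.Agent.P050.Join

variable {V U Ω : Type} [Fintype V] [DecidableEq V] [Fintype U] [Fintype Ω]

/-- the coordinates in `R` -/
def mz (Z : Ω → V → Option U) (R : Finset V) (ω : Ω) : V → Option U :=
  fun v => if v ∈ R then Z ω v else none

/-- the entropy of the coordinates in `R` -/
noncomputable def he (P : Ω → ℝ) (Z : Ω → V → Option U) (R : Finset V) : ℝ := ent P (mz Z R)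

/-- restriction -/
def rz (R : Finset V) (d : V → Option U) : V → Option U := fun v => if v ∈ R then d v else none

theorem rz_mz {Z : Ω → V → Option U} {R Q : Finset V} (h : Q ⊆ R) (ω : Ω) :
    rz Q (mz Z R ω) = mz Z Q ω := by
  funext v
  unfold rz mz
  by_cases hv : v ∈ Q
  · simp [hv, h hv]
  · simp [hv]

theorem mz_eq {Z : Ω → V → Option U} {R : Finset V} {ω ω' : Ω} :
    mz Z R ω = mz Z R ω' ↔ ∀ v ∈ R, Z ω v = Z ω' v := by
  unfold mz
  rw [funext_iff]
  refine forall_congr' fun v => ?_
  by_cases h : v ∈ R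
  · simp [h]
  · simp [h]

section count

variable (H : SimpleGraph V) (s : V → Bool)

open Classical in
/-- the number of edges inside `R` -/
noncomputable def eb (R : Finset V) : ℕ :=
  (univ.filter fun e : V × V => (e.1 ∈ R ∧ e.2 ∈ R) ∧ H.Adj e.1 e.2 ∧ s e.1 = false ∧
    s e.2 = true).card

variable {H s}

theorem eb_insert (hs : ∀ u v, H.Adj u v → s u ≠ s v) {R D : Finset V} {w : V} (hw : w ∉ R)
    (hD : ∀ x ∈ R, H.Adj w x ↔ x ∈ D) : eb H s (insert w R) = eb H s R + (R ∩ D).card := by
  classical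
  unfold eb
  have h1 : (univ.filter fun e : V × V => (e.1 ∈ insert w R ∧ e.2 ∈ insert w R) ∧
      H.Adj e.1 e.2 ∧ s e.1 = false ∧ s e.2 = true) =
      (univ.filter fun e : V × V => (e.1 ∈ R ∧ e.2 ∈ R) ∧ H.Adj e.1 e.2 ∧ s e.1 = false ∧
        s e.2 = true) ∪ (R ∩ D).image fun x => if s w = false then (w, x) else (x, w) := by
    ext ⟨u, v⟩
    simp only [Finset.mem_filter, Finset.mem_univ, true_and, Finset.mem_union, Finset.mem_insert,
      Finset.mem_image, Finset.mem_inter]
    constructor
    · rintro ⟨⟨hu, hv⟩, ha, su, sv⟩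
      rcases hu with rfl | hu
      · rcases hv with rfl | hv
        · exact absurd ha (H.loopless.irrefl _)
        · right
          exact ⟨v, ⟨hv, (hD v hv).1 ha⟩, by rw [if_pos su]⟩
      · rcases hv with rfl | hv
        · right
          refine ⟨u, ⟨hu, (hD u hu).1 ha.symm⟩, ?_⟩
          rw [if_neg]
          rw [sv]
          decide
        · left
          exact ⟨⟨hu, hv⟩, ha, su, sv⟩
    · rintro (⟨⟨hu, hv⟩, ha, su, sv⟩ | ⟨x, ⟨hx, hxD⟩, hxe⟩)
      · exact ⟨⟨Or.inr hu, Or.inr hv⟩, ha, su, sv⟩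
      · have ha := (hD x hx).2 hxD
        have hne := hs _ _ ha
        by_cases hsw : s w = false
        · rw [if_pos hsw, Prod.mk.injEq] at hxe
          obtain ⟨rfl, rfl⟩ := hxe
          refine ⟨⟨Or.inl rfl, Or.inr hx⟩, ha, hsw, ?_⟩
          rw [hsw] at hne
          cases hsx : s x
          · exact absurd hsx.symm hne
          · rfl
        · rw [if_neg hsw, Prod.mk.injEq] at hxe
          obtain ⟨rfl, rfl⟩ := hxe
          have hsw' : s w = true := by
            cases h : s w
            · exact absurd h hsw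
            · rfl
          refine ⟨⟨Or.inr hx, Or.inl rfl⟩, ha.symm, ?_, hsw'⟩
          rw [hsw'] at hne
          cases hsx : s x
          · rfl
          · exact absurd hsx.symm hne
  rw [h1, Finset.card_union_of_disjoint, Finset.card_image_of_injective]
  · intro x y hxy
    simp only at hxy
    split_ifs at hxy
    · exact (Prod.mk.inj hxy).2
    · exact (Prod.mk.inj hxy).1
  · rw [Finset.disjoint_left]
    rintro ⟨u, v⟩ h2 h3
    simp only [Finset.mem_filter, Finset.mem_univ, true_and, Finset.mem_image] at h2 h3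
    obtain ⟨x, _, hx⟩ := h3
    split_ifs at hx
    · rw [Prod.mk.injEq] at hx
      exact hw (hx.1 ▸ h2.1.1)
    · rw [Prod.mk.injEq] at hx
      exact hw (hx.2 ▸ h2.1.2)

theorem eb_empty : eb H s ∅ = 0 := by
  classical
  unfold eb
  simp

end count

/-- the vertices of one side -/
def sd (s : V → Bool) (b : Bool) (S : Finset V) : Finset V := S.filter fun v => s v = b

theorem mem_sd {s : V → Bool} {b : Bool} {S : Finset V} {v : V} :
    v ∈ sd s b S ↔ v ∈ S ∧ s v = b := by
  unfold sd
  rw [Finset.mem_filter]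

/-- laws on the vertex set `S`; `C v D`: the vertices in `D` are conditionally independent
neighbours of `v` -/
structure TS (m : Bool → U → ℝ) (π : U → U → ℝ) (H : SimpleGraph V) (s : V → Bool)
    (S : Finset V) (C : V → Finset V → Prop) (P : Ω → ℝ) (Z : Ω → V → Option U) : Prop where
  nonneg : ∀ ω, 0 ≤ P ω
  total : ∑ ω, P ω = 1
  out : ∀ ω, ∀ v ∉ S, Z ω v = none
  inn : ∀ ω, ∀ v ∈ S, (Z ω v).isSome = true
  vert : ∀ v ∈ S, ∀ F : Option U → ℝ, ∑ ω, P ω * F (Z ω v) = ∑ x, m (s v) x * F (some x)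
  edge : ∀ u ∈ S, ∀ v ∈ S, H.Adj u v → s u = false → ∀ F : Option U → Option U → ℝ,
    ∑ ω, P ω * F (Z ω u) (Z ω v) = ∑ x, ∑ y, π x y * F (some x) (some y)
  low : ∀ R ⊆ S, (∑ v ∈ S, hm m (s v) - ∑ v ∈ R, hm m (s v)) - (he P Z S - he P Z R) ≤
    ((eb H s S : ℝ) - eb H s R) * ii m π
  mid : ∀ R ⊆ S, he P Z (R ∪ sd s false S) + he P Z (R ∪ sd s true S) - he P Z R - he P Z S ≤
    (eb H s (S \ R) : ℝ) * ii m π
  star : ∀ v D, C v D → v ∈ S ∧ D ⊆ S ∧ (∀ d ∈ D, H.Adj v d) ∧
    hm m (s v) + (D.card : ℝ) * (hr π - hm m (s v)) ≤ he P Z (insert v D)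

variable {m : Bool → U → ℝ} {π : U → U → ℝ} {H : SimpleGraph V} {s : V → Bool} {S : Finset V}
  {C : V → Finset V → Prop} {P : Ω → ℝ} {Z : Ω → V → Option U}

/-- submodularity -/
theorem he_submod (hP : ∀ ω, 0 ≤ P ω) (R Q T : Finset V) : he P Z (R ∪ Q ∪ T) + he P Z T ≤
    he P Z (R ∪ T) + he P Z (Q ∪ T) := by
  have h1 := ent_submod hP (mz Z R) (mz Z Q) (mz Z T)
  unfold he
  refine le_trans (le_of_eq ?_) (h1.trans (le_of_eq ?_))
  · congr 1
    refine ent_fib fun ω ω' => ?_
    simp only [Prod.mk.injEq, mz_eq, Finset.mem_union]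
    exact ⟨fun h => ⟨fun v hv => h v (Or.inl (Or.inl hv)), fun v hv => h v (Or.inl (Or.inr hv)),
      fun v hv => h v (Or.inr hv)⟩, fun h v hv => by
        rcases hv with (hv | hv) | hv
        · exact h.1 v hv
        · exact h.2.1 v hv
        · exact h.2.2 v hv⟩
  · congr 1
    · refine ent_fib fun ω ω' => ?_
      simp only [Prod.mk.injEq, mz_eq, Finset.mem_union]
      exact ⟨fun h v hv => hv.elim (h.1 v) (h.2 v), fun h => ⟨fun v hv => h v (Or.inl hv),
        fun v hv => h v (Or.inr hv)⟩⟩
    · refine ent_fib fun ω ω' => ?_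
      simp only [Prod.mk.injEq, mz_eq, Finset.mem_union]
      exact ⟨fun h v hv => hv.elim (h.1 v) (h.2 v), fun h => ⟨fun v hv => h v (Or.inl hv),
        fun v hv => h v (Or.inr hv)⟩⟩

theorem he_empty (h1 : ∑ ω, P ω = 1) : he P Z ∅ = 0 := by
  unfold he
  have h2 : mz Z ∅ = fun _ => fun _ => none := by
    funext ω v
    simp [mz]
  rw [h2, ent_eq]
  have : mar P (fun _ : Ω => (fun _ => none : V → Option U)) (fun _ => none) = 1 := by
    unfold mar
    simp [h1]
  simp [this]

namespace TS

variable (h : TS m π H s S C P Z)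

include h

theorem he_one {v : V} (hv : v ∈ S) : he P Z {v} = hm m (s v) := by
  have h1 : he P Z {v} = ent P (fun ω => Z ω v) := by
    unfold he
    refine ent_fib fun ω ω' => ?_
    rw [mz_eq]
    simp
  rw [h1]
  have h2 : ent (m (s v)) (fun x => some x) = hm m (s v) := by
    unfold hm
    exact ent_inj (m (s v)) (fun x => x) (e := fun x => some x) fun x y hxy => by simpa using hxy
  rw [← h2]
  exact ent_law fun a => mar_of_sum (fun F => h.vert v hv F) a

theorem he_two (hb : Base m π) (hs : ∀ u v, H.Adj u v → s u ≠ s v) {u v : V} (hu : u ∈ S)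
    (hv : v ∈ S) (ha : H.Adj u v) : he P Z {u, v} = hr π := by
  have key : ∀ u v, u ∈ S → v ∈ S → H.Adj u v → s u = false → he P Z {u, v} = hr π := by
    intro u v hu hv ha hsu
    have h1 : he P Z {u, v} = ent P (fun ω => (Z ω u, Z ω v)) := by
      unfold he
      refine ent_fib fun ω ω' => ?_
      rw [mz_eq, Prod.mk.injEq]
      simp
    rw [h1]
    have h2 : ent (pb π) (fun p => ((some p.1 : Option U), (some p.2 : Option U))) = hr π := by
      rw [← ent_pb hb]
      exact ent_inj (pb π) (fun p => p) (e := fun p => (some p.1, some p.2)) fun x y hxy => by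
        simp only [Prod.mk.injEq, Option.some.injEq] at hxy
        exact Prod.ext hxy.1 hxy.2
    rw [← h2]
    refine ent_law fun a => mar_of_sum (fun F => ?_) a
    rw [h.edge u hu v hv ha hsu fun x y => F (x, y), Fintype.sum_prod_type]
    rfl
  cases hsu : s u
  · exact key u v hu hv ha hsu
  · have hne := hs _ _ ha
    rw [hsu] at hne
    have hsv : s v = false := by
      cases hsv : s v
      · rfl
      · exact absurd hsv.symm hne
    rw [Finset.pair_comm]
    exact key v u hv hu ha.symm hsv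

/-- upper bound for a star -/
theorem star_le (hb : Base m π) (hs : ∀ u v, H.Adj u v → s u ≠ s v) {v : V} (hv : v ∈ S)
    {Q D : Finset V} (hQD : Q ⊆ D) (hDS : D ⊆ S) (hadj : ∀ d ∈ D, H.Adj v d) :
    he P Z (insert v D) ≤ he P Z (insert v Q) + ((D.card : ℝ) - Q.card) * (hr π - hm m (s v)) := by
  have key : ∀ T : Finset V, T ⊆ D → he P Z (insert v (Q ∪ T)) ≤ he P Z (insert v Q) +
      (T.card : ℝ) * (hr π - hm m (s v)) := by
    intro T
    induction T using Finset.induction_on with
    | empty =>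
      intro _
      simp
    | insert x T hx ihT =>
      intro hT
      have h1 := ihT ((Finset.subset_insert _ _).trans hT)
      have hxD : x ∈ D := hT (Finset.mem_insert_self _ _)
      have h2 := he_submod (Z := Z) h.nonneg {x} (Q ∪ T) {v}
      have e1 : {x} ∪ (Q ∪ T) ∪ {v} = insert v (Q ∪ insert x T) := by
        ext y
        simp only [Finset.mem_union, Finset.mem_singleton, Finset.mem_insert]
        tauto
      have e2 : ({x} : Finset V) ∪ {v} = {x, v} := rfl
      have e3 : Q ∪ T ∪ {v} = insert v (Q ∪ T) := by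
        ext y
        simp only [Finset.mem_union, Finset.mem_singleton, Finset.mem_insert]
        tauto
      rw [e1, e2, e3, h.he_one hv, h.he_two hb hs (hDS hxD) hv (hadj x hxD).symm] at h2
      rw [Finset.card_insert_of_notMem hx]
      push_cast
      linarith
  have h3 := key (D \ Q) Finset.sdiff_subset
  rw [Finset.union_sdiff_of_subset hQD] at h3
  have h4 : ((D \ Q).card : ℝ) = (D.card : ℝ) - Q.card := by
    rw [Finset.card_sdiff_of_subset hQD, Nat.cast_sub (Finset.card_le_card hQD)]
  rw [h4] at h3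
  exact h3

end TS

end Vale.Agent.P050.Tmpl
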