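import Vale.Agent.P050.Tmpl.State

/-!
One more vertex.
-/

set_option linter.unusedSectionVars false

namespace Vale.Agent.P050.Tmpl

open Finset Vale.Agent.P050.Cart Vale.Agent.P050.Join

variable {V U Ω : Type} [Fintype V] [DecidableEq V] [Fintype U] [Fintype Ω]

/-- the new random variables -/
def zz (Z : Ω → V → Option U) (w : V) (x : Ω × U) : V → Option U :=
  Function.update (Z x.1) w (some x.2)

/-- the new law -/
def pp (P : Ω → ℝ) (Z : Ω → V → Option U) (D : Finset V) (q : (V → Option U) → U → ℝ) :
    Ω × U → ℝ := ext P (mz Z D) q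

/-- conditional entropy of the new variable -/
noncomputable def gg (P : Ω → ℝ) (Z : Ω → V → Option U) (D : Finset V)
    (q : (V → Option U) → U → ℝ) (Q : Finset V) : ℝ :=
  ent (pp P Z D q) (fun x => (mz Z Q x.1, x.2)) - he P Z Q

variable {m : Bool → U → ℝ} {π : U → U → ℝ} {H : SimpleGraph V} {s : V → Bool} {S : Finset V}
  {C : V → Finset V → Prop} {P : Ω → ℝ} {Z : Ω → V → Option U} {D : Finset V}
  {q : (V → Option U) → U → ℝ} {w : V}

theorem mz_zz {R : Finset V} (hw : w ∉ R) (x : Ω × U) : mz (zz Z w) R x = mz Z R x.1 := by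
  funext v
  unfold mz
  split_ifs with hv
  · unfold zz
    rw [Function.update_of_ne]
    rintro rfl
    exact hw hv
  · rfl

theorem mz_zz_insert {R : Finset V} (hw : w ∉ R) {x y : Ω × U} :
    mz (zz Z w) (insert w R) x = mz (zz Z w) (insert w R) y ↔
      (mz Z R x.1, x.2) = (mz Z R y.1, y.2) := by
  rw [mz_eq, Prod.mk.injEq, mz_eq]
  constructor
  · intro h
    refine ⟨fun v hv => ?_, ?_⟩
    · have := h v (Finset.mem_insert_of_mem hv)
      have hne : v ≠ w := fun h' => hw (h' ▸ hv)
      simpa [zz, Function.update_of_ne hne] using this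
    · have := h w (Finset.mem_insert_self _ _)
      simpa [zz] using this
  · rintro ⟨h1, h2⟩ v hv
    rcases Finset.mem_insert.1 hv with rfl | hv
    · simp [zz, h2]
    · have hne : v ≠ w := fun h' => hw (h' ▸ hv)
      simpa [zz, Function.update_of_ne hne] using h1 v hv

section facts

variable (hP : ∀ ω, 0 ≤ P ω) (hq : ∀ d u, 0 ≤ q d u)
  (hst : ∀ ω, P ω ≠ 0 → ∑ u, q (mz Z D ω) u = 1)

include hst

theorem he_old {R : Finset V} (hw : w ∉ R) : he (pp P Z D q) (zz Z w) R = he P Z R := by
  unfold he
  have h1 : mz (zz Z w) R = fun x : Ω × U => mz Z R x.1 := by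
    funext x
    exact mz_zz hw x
  rw [h1]
  exact ent_ext_fst hst (mz Z R)

omit hst in
theorem he_new {R : Finset V} (hw : w ∉ R) : he (pp P Z D q) (zz Z w) (insert w R) =
    he P Z R + gg P Z D q R := by
  unfold gg
  rw [add_sub_cancel]
  unfold he
  exact ent_fib fun x y => mz_zz_insert hw

include hP hq

theorem gg_ge (R : Finset V) : gg P Z D q D ≤ gg P Z D q R := by
  have := ent_ext_ge (c := mz Z D) hP hq hst (mz Z R)
  unfold gg he pp
  linarith

theorem gg_le (R : Finset V) : gg P Z D q R ≤ gg P Z D q (R ∩ D) := by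
  have := ent_ext_le (c := mz Z D) hP hq hst (mz Z R) (rz (R ∩ D))
  have h1 : (fun ω => rz (R ∩ D) (mz Z R ω)) = mz Z (R ∩ D) := by
    funext ω
    exact rz_mz Finset.inter_subset_left ω
  have h2 : (fun x : Ω × U => (rz (R ∩ D) (mz Z R x.1), x.2)) =
      fun x => (mz Z (R ∩ D) x.1, x.2) := by
    funext x
    rw [rz_mz Finset.inter_subset_left]
  rw [h1, h2] at this
  unfold gg he pp
  linarith

end facts

/-- **One more vertex.** -/
theorem TS.extend (h : TS m π H s S C P Z) (hs : ∀ u v, H.Adj u v → s u ≠ s v) (hw : w ∉ S)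
    (hDS : D ⊆ S) (hadj : ∀ x ∈ S, H.Adj w x ↔ x ∈ D) (hq : ∀ d u, 0 ≤ q d u)
    (hst : ∀ ω, P ω ≠ 0 → ∑ u, q (mz Z D ω) u = 1)
    (hv : ∀ F : Option U → ℝ, ∑ x, pp P Z D q x * F (some x.2) = ∑ u, m (s w) u * F (some u))
    (he1 : ∀ d ∈ D, s d = false → ∀ F : Option U → Option U → ℝ,
      ∑ x, pp P Z D q x * F (Z x.1 d) (some x.2) = ∑ x, ∑ y, π x y * F (some x) (some y))
    (he2 : ∀ d ∈ D, s d = true → ∀ F : Option U → Option U → ℝ,
      ∑ x, pp P Z D q x * F (some x.2) (Z x.1 d) = ∑ x, ∑ y, π x y * F (some x) (some y))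
    (hG : ∀ Q ⊆ D, gg P Z D q Q - gg P Z D q D ≤ ((D.card : ℝ) - Q.card) * ii m π)
    {C' : V → Finset V → Prop}
    (hC' : ∀ a B, C' a B → C a B ∨ (a ∈ insert w S ∧ B ⊆ insert w S ∧ (∀ d ∈ B, H.Adj a d) ∧
      hm m (s a) + (B.card : ℝ) * (hr π - hm m (s a)) ≤
        he (pp P Z D q) (zz Z w) (insert a B))) :
    TS m π H s (insert w S) C' (pp P Z D q) (zz Z w) := by
  classical
  have hP := h.nonneg
  have g0 : gg P Z D q ∅ = hm m (s w) := by
    have e1 := he_new (P := P) (Z := Z) (D := D) (q := q) (w := w) (R := ∅) (by simp)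
    rw [he_empty h.total, zero_add] at e1
    rw [← e1]
    have e2 : he (pp P Z D q) (zz Z w) (insert w ∅) = ent (pp P Z D q) (fun x => x.2) := by
      unfold he
      refine ent_fib fun x y => ?_
      rw [mz_zz_insert (by simp), Prod.mk.injEq, mz_eq]
      simp
    rw [e2]
    have e3 : ent (m (s w)) (fun x => x) = hm m (s w) := rfl
    rw [← e3]
    refine ent_law fun a => mar_of_sum (fun F => ?_) a
    have := hv fun o => o.elim 0 F
    simpa using this
  have gD : hm m (s w) - (D.card : ℝ) * ii m π ≤ gg P Z D q D := by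
    have := hG ∅ (Finset.empty_subset _)
    rw [g0, Finset.card_empty] at this
    push_cast at this
    linarith
  have hadjR : ∀ R ⊆ S, ∀ x ∈ R, H.Adj w x ↔ x ∈ D := fun R hR x hx => hadj x (hR hx)
  have ebS : (eb H s (insert w S) : ℝ) = eb H s S + D.card := by
    rw [eb_insert hs hw hadj, Finset.inter_eq_right.2 hDS]
    push_cast
    ring
  have heS : he (pp P Z D q) (zz Z w) (insert w S) = he P Z S + gg P Z D q S := he_new hw
  have gS := gg_ge hP hq hst S
  have hDbound : ∀ R : Finset V, ((R ∩ D).card : ℝ) ≤ D.card := fun R => by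
    exact_mod_cast Finset.card_le_card Finset.inter_subset_right
  refine ⟨ext_nonneg hP hq, ext_total hst h.total, ?_, ?_, ?_, ?_, ?_, ?_, ?_⟩
  · intro x v hvS
    have hne : v ≠ w := fun h' => hvS (h' ▸ Finset.mem_insert_self _ _)
    unfold zz
    rw [Function.update_of_ne hne]
    exact h.out _ _ fun h' => hvS (Finset.mem_insert_of_mem h')
  · intro x v hvS
    by_cases hne : v = w
    · subst hne
      simp [zz]
    · unfold zz
      rw [Function.update_of_ne hne]
      exact h.inn _ _ ((Finset.mem_insert.1 hvS).resolve_left hne)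
  · intro v hvS F
    by_cases hne : v = w
    · subst hne
      have := hv F
      simpa [zz] using this
    · have hvS' := (Finset.mem_insert.1 hvS).resolve_left hne
      rw [← h.vert v hvS' F, ← sum_ext_fst (q := q) hst fun ω => F (Z ω v)]
      refine Finset.sum_congr rfl fun x _ => ?_
      unfold zz pp
      rw [Function.update_of_ne hne]
  · intro u hu v hv' ha hsu F
    by_cases huw : u = w
    · subst huw
      have hvw : v ≠ u := ha.ne'
      have hvS := (Finset.mem_insert.1 hv').resolve_left hvw
      have hvD := (hadj v hvS).1 ha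
      have hsv : s v = true := by
        have := hs _ _ ha
        rw [hsu] at this
        cases hsv : s v
        · exact absurd hsv.symm this
        · rfl
      rw [← he2 v hvD hsv F]
      refine Finset.sum_congr rfl fun x _ => ?_
      simp [zz, Function.update_of_ne hvw]
    · have huS := (Finset.mem_insert.1 hu).resolve_left huw
      by_cases hvw : v = w
      · subst hvw
        have huD := (hadj u huS).1 ha.symm
        rw [← he1 u huD hsu F]
        refine Finset.sum_congr rfl fun x _ => ?_
        simp [zz, Function.update_of_ne huw]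
      · have hvS := (Finset.mem_insert.1 hv').resolve_left hvw
        rw [← h.edge u huS v hvS ha hsu F, ← sum_ext_fst (q := q) hst fun ω => F (Z ω u) (Z ω v)]
        refine Finset.sum_congr rfl fun x _ => ?_
        unfold zz pp
        rw [Function.update_of_ne huw, Function.update_of_ne hvw]
  · -- low
    intro R hR
    by_cases hwR : w ∈ R
    · have hR0 : R.erase w ⊆ S := by
        intro x hx
        rw [Finset.mem_erase] at hx
        exact (Finset.mem_insert.1 (hR hx.2)).resolve_left hx.1
      have hw0 : w ∉ R.erase w := Finset.notMem_erase _ _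
      obtain ⟨R0, rfl, hwR0⟩ : ∃ R0, R = insert w R0 ∧ w ∉ R0 :=
        ⟨R.erase w, (Finset.insert_erase hwR).symm, hw0⟩
      rw [Finset.erase_insert hwR0] at hR0
      rw [heS, he_new hwR0, ebS, eb_insert hs hwR0 (hadjR R0 hR0), Finset.sum_insert hw,
        Finset.sum_insert hwR0]
      have h1 := h.low R0 hR0
      have h2 := gg_le hP hq hst R0
      have h3 := hG (R0 ∩ D) Finset.inter_subset_right
      push_cast
      nlinarith
    · have hR0 : R ⊆ S := fun x hx =>
        (Finset.mem_insert.1 (hR hx)).resolve_left fun h' => hwR (h' ▸ hx)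
      rw [heS, he_old hst hwR, ebS, Finset.sum_insert hw]
      have h1 := h.low R hR0
      nlinarith
  · -- mid
    have aux : ∀ b : Bool, s w = b → ∀ R ⊆ insert w S,
        he (pp P Z D q) (zz Z w) (R ∪ sd s (!b) (insert w S)) +
        he (pp P Z D q) (zz Z w) (R ∪ sd s b (insert w S)) - he (pp P Z D q) (zz Z w) R -
        he (pp P Z D q) (zz Z w) (insert w S) ≤ (eb H s ((insert w S) \ R) : ℝ) * ii m π := by
      intro b hb R hR
      have old : ∀ T ⊆ S, he P Z (T ∪ sd s (!b) S) + he P Z (T ∪ sd s b S) - he P Z T -
          he P Z S ≤ (eb H s (S \ T) : ℝ) * ii m π := by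
        intro T hT
        have := h.mid T hT
        cases b
        · simp only [Bool.not_false]
          linarith
        · simp only [Bool.not_true]
          linarith
      have s1 : sd s (!b) (insert w S) = sd s (!b) S := by
        ext x
        simp only [mem_sd, Finset.mem_insert]
        constructor
        · rintro ⟨rfl | h1, h2⟩
          · rw [hb] at h2
            cases b <;> simp at h2
          · exact ⟨h1, h2⟩
        · exact fun h1 => ⟨Or.inr h1.1, h1.2⟩
      have s2 : sd s b (insert w S) = insert w (sd s b S) := by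
        ext x
        simp only [mem_sd, Finset.mem_insert]
        constructor
        · rintro ⟨rfl | h1, h2⟩
          · exact Or.inl rfl
          · exact Or.inr ⟨h1, h2⟩
        · rintro (rfl | h1)
          · exact ⟨Or.inl rfl, hb⟩
          · exact ⟨Or.inr h1.1, h1.2⟩
      have sdS : ∀ c, sd s c S ⊆ S := fun c => Finset.filter_subset _ _
      have hDb : ∀ d ∈ D, s d = !b := by
        intro d hd
        have := hs _ _ ((hadj d (hDS hd)).2 hd)
        rw [hb] at this
        cases b <;> cases hsd : s d <;> simp_all
      have hwsd : ∀ c, w ∉ sd s c S := fun c h' => hw (sdS c h')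
      rw [s1, s2]
      by_cases hwR : w ∈ R
      · obtain ⟨R0, rfl, hwR0⟩ : ∃ R0, R = insert w R0 ∧ w ∉ R0 :=
          ⟨R.erase w, (Finset.insert_erase hwR).symm, Finset.notMem_erase _ _⟩
        have hR0 : R0 ⊆ S := fun x hx =>
          (Finset.mem_insert.1 (hR (Finset.mem_insert_of_mem hx))).resolve_left
            fun h' => hwR0 (h' ▸ hx)
        have u1 : insert w R0 ∪ sd s (!b) S = insert w (R0 ∪ sd s (!b) S) :=
          Finset.insert_union _ _ _
        have u2 : insert w R0 ∪ insert w (sd s b S) = insert w (R0 ∪ sd s b S) := by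
          rw [Finset.insert_union, Finset.union_insert, Finset.insert_idem]
        have n1 : w ∉ R0 ∪ sd s (!b) S := by
          rw [Finset.mem_union]
          exact fun h' => h'.elim hwR0 (hwsd _)
        have n2 : w ∉ R0 ∪ sd s b S := by
          rw [Finset.mem_union]
          exact fun h' => h'.elim hwR0 (hwsd _)
        have e5 : (insert w S) \ (insert w R0) = S \ R0 := by
          ext x
          simp only [Finset.mem_sdiff, Finset.mem_insert]
          constructor
          · rintro ⟨h1, h2⟩
            rw [not_or] at h2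
            exact ⟨h1.resolve_left h2.1, h2.2⟩
          · rintro ⟨h1, h2⟩
            exact ⟨Or.inr h1, fun h3 => h3.elim (fun h4 => hw (h4 ▸ h1)) h2⟩
        rw [u1, u2, he_new n1, he_new hwR0, heS, e5]
        -- the coordinate `w` is seen
        have h1 := gg_le hP hq hst (R0 ∪ sd s (!b) S)
        have e6 : (R0 ∪ sd s (!b) S) ∩ D = D := by
          rw [Finset.inter_eq_right]
          intro d hd
          rw [Finset.mem_union, mem_sd]
          exact Or.inr ⟨hDS hd, hDb d hd⟩
        rw [e6] at h1
        have h2 := he_submod (P := pp P Z D q) (Z := zz Z w) (ext_nonneg hP hq) (sd s b S) {w} R0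
        have e7 : sd s b S ∪ {w} ∪ R0 = insert w (R0 ∪ sd s b S) := by
          ext x
          simp only [Finset.mem_union, Finset.mem_singleton, Finset.mem_insert]
          tauto
        have e8 : {w} ∪ R0 = insert w R0 := rfl
        rw [e7, e8, he_new hwR0, he_old hst hwR0, he_old hst (R := sd s b S ∪ R0) (by
          rw [Finset.union_comm]
          exact n2), Finset.union_comm (sd s b S) R0] at h2
        have h3 := old R0 hR0
        linarith
      · have hR0 : R ⊆ S := fun x hx =>
          (Finset.mem_insert.1 (hR hx)).resolve_left fun h' => hwR (h' ▸ hx)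
        have u2 : R ∪ insert w (sd s b S) = insert w (R ∪ sd s b S) := Finset.union_insert _ _ _
        have n1 : w ∉ R ∪ sd s (!b) S := by
          rw [Finset.mem_union]
          exact fun h' => h'.elim hwR (hwsd _)
        have n2 : w ∉ R ∪ sd s b S := by
          rw [Finset.mem_union]
          exact fun h' => h'.elim hwR (hwsd _)
        have e5 : (insert w S) \ R = insert w (S \ R) := by
          rw [Finset.insert_sdiff_of_notMem _ hwR]
        have hwSR : w ∉ S \ R := fun h' => hw (Finset.mem_sdiff.1 h').1
        rw [u2, he_old hst n1, he_new n2, he_old hst hwR, heS, e5,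
          eb_insert hs hwSR fun x hx => hadj x (Finset.mem_sdiff.1 hx).1]
        have h1 := gg_le hP hq hst (R ∪ sd s b S)
        have e6 : (R ∪ sd s b S) ∩ D = R ∩ D := by
          ext x
          simp only [Finset.mem_inter, Finset.mem_union, mem_sd]
          constructor
          · rintro ⟨h2 | h2, h3⟩
            · exact ⟨h2, h3⟩
            · have := hDb x h3
              rw [h2.2] at this
              cases b <;> simp at this
          · exact fun h2 => ⟨Or.inl h2.1, h2.2⟩
        rw [e6] at h1
        have h2 := hG (R ∩ D) Finset.inter_subset_right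
        have h3 := old R hR0
        have h4 : (((S \ R) ∩ D).card : ℝ) = (D.card : ℝ) - (R ∩ D).card := by
          have e9 : (S \ R) ∩ D = D \ (R ∩ D) := by
            ext x
            simp only [Finset.mem_inter, Finset.mem_sdiff]
            constructor
            · rintro ⟨⟨_, h6⟩, h7⟩
              exact ⟨h7, fun h8 => h6 h8.1⟩
            · rintro ⟨h6, h7⟩
              exact ⟨⟨hDS h6, fun h8 => h7 ⟨h8, h6⟩⟩, h6⟩
          rw [e9, Finset.card_sdiff_of_subset Finset.inter_subset_right,
            Nat.cast_sub (Finset.card_le_card Finset.inter_subset_right)]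
        push_cast
        rw [h4]
        linarith
    intro R hR
    have := aux (s w) rfl R hR
    cases hb : s w
    · rw [hb] at this
      simp only [Bool.not_false] at this
      linarith
    · rw [hb] at this
      simp only [Bool.not_true] at this
      linarith
  · -- star
    intro a B hab
    rcases hC' a B hab with h1 | h1
    · obtain ⟨h2, h3, h4, h5⟩ := h.star a B h1
      refine ⟨Finset.mem_insert_of_mem h2, h3.trans (Finset.subset_insert _ _), h4, ?_⟩
      rw [he_old hst]
      · exact h5
      · intro h6
        rcases Finset.mem_insert.1 h6 with h7 | h7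
        · exact hw (h7 ▸ h2)
        · exact hw (h3 h7)
    · exact h1

end Vale.Agent.P050.Tmpl
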