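import Vale.Agent.P050.Tmpl.Rules

/-!
Laws with total correlation at most the number of edges times the mutual information of an edge,
on a growing vertex set.
-/

set_option linter.unusedSectionVars false

namespace Vale.Agent.P050.Tmpl

open Finset Vale.Agent.P050.Cart Vale.Agent.P050.Join

variable {V U Ω : Type} [Fintype V] [DecidableEq V] [Fintype U] [Fintype Ω]

/-- laws on the vertex set `S`; `C v D`: the vertices in `D` are conditionally independent
neighbours of `v` -/
structure TW (m : Bool → U → ℝ) (π : U → U → ℝ) (H : SimpleGraph V) (s : V → Bool)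
    (S : Finset V) (C : V → Finset V → Prop) (P : Ω → ℝ) (Z : Ω → V → Option U) : Prop where
  nonneg : ∀ ω, 0 ≤ P ω
  total : ∑ ω, P ω = 1
  out : ∀ ω, ∀ v ∉ S, Z ω v = none
  inn : ∀ ω, P ω ≠ 0 → ∀ v ∈ S, (Z ω v).isSome = true
  vert : ∀ v ∈ S, ∀ F : Option U → ℝ, ∑ ω, P ω * F (Z ω v) = ∑ x, m (s v) x * F (some x)
  edge : ∀ u ∈ S, ∀ v ∈ S, H.Adj u v → s u = false → ∀ F : Option U → Option U → ℝ,
    ∑ ω, P ω * F (Z ω u) (Z ω v) = ∑ x, ∑ y, π x y * F (some x) (some y)
  tc : ∑ v ∈ S, hm m (s v) - he P Z S ≤ (eb H s S : ℝ) * ii m π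
  star : ∀ v D, C v D → v ∈ S ∧ D ⊆ S ∧ (∀ d ∈ D, H.Adj v d) ∧
    hm m (s v) + (D.card : ℝ) * (hr π - hm m (s v)) ≤ he P Z (insert v D)

variable {m : Bool → U → ℝ} {π : U → U → ℝ} {H : SimpleGraph V} {s : V → Bool} {S : Finset V}
  {C : V → Finset V → Prop} {P : Ω → ℝ} {Z : Ω → V → Option U} {D : Finset V}
  {q : (V → Option U) → U → ℝ} {w : V}

namespace TW

section

variable (h : TW m π H s S C P Z)

include h

theorem he_one {v : V} (hv : v ∈ S) : he P Z {v} = hm m (s v) := by
  have h1 : he P Z {v} = ent P (fun ω => Z ω v) := by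
    unfold he
    refine ent_fib fun ω ω' => ?_
    rw [mz_eq]
    simp
  rw [h1]
  have h2 : ent (m (s v)) (fun x => some x) = hm m (s v) := by
    unfold hm
    exact ent_inj (m (s v)) (fun x => x) (e := fun x => some x) fun x y hxy => by simpa using hxy
  rw [← h2]
  exact ent_law fun a => mar_of_sum (fun F => h.vert v hv F) a

theorem he_two (hb : Base m π) (hs : ∀ u v, H.Adj u v → s u ≠ s v) {u v : V} (hu : u ∈ S)
    (hv : v ∈ S) (ha : H.Adj u v) : he P Z {u, v} = hr π := by
  have key : ∀ u v, u ∈ S → v ∈ S → H.Adj u v → s u = false → he P Z {u, v} = hr π := by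
    intro u v hu hv ha hsu
    have h1 : he P Z {u, v} = ent P (fun ω => (Z ω u, Z ω v)) := by
      unfold he
      refine ent_fib fun ω ω' => ?_
      rw [mz_eq, Prod.mk.injEq]
      simp
    rw [h1]
    have h2 : ent (pb π) (fun p => ((some p.1 : Option U), (some p.2 : Option U))) = hr π := by
      rw [← ent_pb hb]
      exact ent_inj (pb π) (fun p => p) (e := fun p => (some p.1, some p.2)) fun x y hxy => by
        simp only [Prod.mk.injEq, Option.some.injEq] at hxy
        exact Prod.ext hxy.1 hxy.2
    rw [← h2]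
    refine ent_law fun a => mar_of_sum (fun F => ?_) a
    rw [h.edge u hu v hv ha hsu fun x y => F (x, y), Fintype.sum_prod_type]
    rfl
  cases hsu : s u
  · exact key u v hu hv ha hsu
  · have hne := hs _ _ ha
    rw [hsu] at hne
    have hsv : s v = false := by
      cases hsv : s v
      · rfl
      · exact absurd hsv.symm hne
    rw [Finset.pair_comm]
    exact key v u hv hu ha.symm hsv

/-- upper bound for a star -/
theorem star_le (hb : Base m π) (hs : ∀ u v, H.Adj u v → s u ≠ s v) {v : V} (hv : v ∈ S)
    {Q D : Finset V} (hQD : Q ⊆ D) (hDS : D ⊆ S) (hadj : ∀ d ∈ D, H.Adj v d) :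
    he P Z (insert v D) ≤ he P Z (insert v Q) + ((D.card : ℝ) - Q.card) * (hr π - hm m (s v)) := by
  have key : ∀ T : Finset V, T ⊆ D → he P Z (insert v (Q ∪ T)) ≤ he P Z (insert v Q) +
      (T.card : ℝ) * (hr π - hm m (s v)) := by
    intro T
    induction T using Finset.induction_on with
    | empty =>
      intro _
      simp
    | insert x T hx ihT =>
      intro hT
      have h1 := ihT ((Finset.subset_insert _ _).trans hT)
      have hxD : x ∈ D := hT (Finset.mem_insert_self _ _)
      have h2 := he_submod (Z := Z) h.nonneg {x} (Q ∪ T) {v}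
      have e1 : {x} ∪ (Q ∪ T) ∪ {v} = insert v (Q ∪ insert x T) := by
        ext y
        simp only [Finset.mem_union, Finset.mem_singleton, Finset.mem_insert]
        tauto
      have e2 : ({x} : Finset V) ∪ {v} = {x, v} := rfl
      have e3 : Q ∪ T ∪ {v} = insert v (Q ∪ T) := by
        ext y
        simp only [Finset.mem_union, Finset.mem_singleton, Finset.mem_insert]
        tauto
      rw [e1, e2, e3, h.he_one hv, h.he_two hb hs (hDS hxD) hv (hadj x hxD).symm] at h2
      rw [Finset.card_insert_of_notMem hx]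
      push_cast
      linarith
  have h3 := key (D \ Q) Finset.sdiff_subset
  rw [Finset.union_sdiff_of_subset hQD] at h3
  have h4 : ((D \ Q).card : ℝ) = (D.card : ℝ) - Q.card := by
    rw [Finset.card_sdiff_of_subset hQD, Nat.cast_sub (Finset.card_le_card hQD)]
  rw [h4] at h3
  exact h3

end

end TW

/-- adding vertices of one side -/
theorem TW.he_le (h : TW m π H s S C P Z) {b : Bool} {Q D : Finset V} (hQD : Q ⊆ D) (hDS : D ⊆ S)
    (hDb : ∀ d ∈ D, s d = b) : he P Z D ≤ he P Z Q + ((D.card : ℝ) - Q.card) * hm m b := by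
  have key : ∀ T : Finset V, T ⊆ D → he P Z (Q ∪ T) ≤ he P Z Q + (T.card : ℝ) * hm m b := by
    intro T
    induction T using Finset.induction_on with
    | empty =>
      intro _
      simp
    | insert x T hx ihT =>
      intro hT
      have h1 := ihT ((Finset.subset_insert _ _).trans hT)
      have hxD : x ∈ D := hT (Finset.mem_insert_self _ _)
      have h2 := he_submod (Z := Z) h.nonneg {x} (Q ∪ T) ∅
      have e1 : {x} ∪ (Q ∪ T) ∪ ∅ = Q ∪ insert x T := by
        ext y
        simp only [Finset.mem_union, Finset.mem_singleton, Finset.mem_insert]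
        simp only [Finset.notMem_empty]
        tauto
      rw [e1, Finset.union_empty, Finset.union_empty, he_empty h.total, h.he_one (hDS hxD),
        hDb x hxD] at h2
      rw [Finset.card_insert_of_notMem hx]
      push_cast
      linarith
  have h3 := key (D \ Q) Finset.sdiff_subset
  rw [Finset.union_sdiff_of_subset hQD] at h3
  have h4 : ((D \ Q).card : ℝ) = (D.card : ℝ) - Q.card := by
    rw [Finset.card_sdiff_of_subset hQD, Nat.cast_sub (Finset.card_le_card hQD)]
  rw [h4] at h3
  exact h3


/-- **One more vertex.** -/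
theorem TW.extend (h : TW m π H s S C P Z) (hs : ∀ u v, H.Adj u v → s u ≠ s v) (hw : w ∉ S)
    (hDS : D ⊆ S) (hadj : ∀ x ∈ S, H.Adj w x ↔ x ∈ D) (hq : ∀ d u, 0 ≤ q d u)
    (hst : ∀ ω, P ω ≠ 0 → ∑ u, q (mz Z D ω) u = 1)
    (hv : ∀ F : Option U → ℝ, ∑ x, pp P Z D q x * F (some x.2) = ∑ u, m (s w) u * F (some u))
    (he1 : ∀ d ∈ D, s d = false → ∀ F : Option U → Option U → ℝ,
      ∑ x, pp P Z D q x * F (Z x.1 d) (some x.2) = ∑ x, ∑ y, π x y * F (some x) (some y))
    (he2 : ∀ d ∈ D, s d = true → ∀ F : Option U → Option U → ℝ,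
      ∑ x, pp P Z D q x * F (some x.2) (Z x.1 d) = ∑ x, ∑ y, π x y * F (some x) (some y))
    (hG : hm m (s w) - (D.card : ℝ) * ii m π ≤ gg P Z D q D)
    {C' : V → Finset V → Prop}
    (hC' : ∀ a B, C' a B → C a B ∨ (a ∈ insert w S ∧ B ⊆ insert w S ∧ (∀ d ∈ B, H.Adj a d) ∧
      hm m (s a) + (B.card : ℝ) * (hr π - hm m (s a)) ≤
        he (pp P Z D q) (zz Z w) (insert a B))) :
    TW m π H s (insert w S) C' (pp P Z D q) (zz Z w) := by
  classical
  have hP := h.nonneg
  refine ⟨ext_nonneg hP hq, ext_total hst h.total, ?_, ?_, ?_, ?_, ?_, ?_⟩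
  · intro x v hvS
    have hne : v ≠ w := fun h' => hvS (h' ▸ Finset.mem_insert_self _ _)
    unfold zz
    rw [Function.update_of_ne hne]
    exact h.out _ _ fun h' => hvS (Finset.mem_insert_of_mem h')
  · intro x hx v hvS
    have hx1 : P x.1 ≠ 0 := fun h' => hx (by simp [pp, ext, h'])
    by_cases hne : v = w
    · subst hne
      simp [zz]
    · unfold zz
      rw [Function.update_of_ne hne]
      exact h.inn _ hx1 _ ((Finset.mem_insert.1 hvS).resolve_left hne)
  · intro v hvS F
    by_cases hne : v = w
    · subst hne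
      have := hv F
      simpa [zz] using this
    · have hvS' := (Finset.mem_insert.1 hvS).resolve_left hne
      rw [← h.vert v hvS' F, ← sum_ext_fst (q := q) hst fun ω => F (Z ω v)]
      refine Finset.sum_congr rfl fun x _ => ?_
      unfold zz pp
      rw [Function.update_of_ne hne]
  · intro u hu v hv' ha hsu F
    by_cases huw : u = w
    · subst huw
      have hvw : v ≠ u := ha.ne'
      have hvS := (Finset.mem_insert.1 hv').resolve_left hvw
      have hvD := (hadj v hvS).1 ha
      have hsv : s v = true := by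
        have := hs _ _ ha
        rw [hsu] at this
        cases hsv : s v
        · exact absurd hsv.symm this
        · rfl
      rw [← he2 v hvD hsv F]
      refine Finset.sum_congr rfl fun x _ => ?_
      simp [zz, Function.update_of_ne hvw]
    · have huS := (Finset.mem_insert.1 hu).resolve_left huw
      by_cases hvw : v = w
      · subst hvw
        have huD := (hadj u huS).1 ha.symm
        rw [← he1 u huD hsu F]
        refine Finset.sum_congr rfl fun x _ => ?_
        simp [zz, Function.update_of_ne huw]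
      · have hvS := (Finset.mem_insert.1 hv').resolve_left hvw
        rw [← h.edge u huS v hvS ha hsu F, ← sum_ext_fst (q := q) hst fun ω => F (Z ω u) (Z ω v)]
        refine Finset.sum_congr rfl fun x _ => ?_
        unfold zz pp
        rw [Function.update_of_ne huw, Function.update_of_ne hvw]
  · have ebS : (eb H s (insert w S) : ℝ) = eb H s S + D.card := by
      rw [eb_insert hs hw hadj, Finset.inter_eq_right.2 hDS]
      push_cast
      ring
    have heS : he (pp P Z D q) (zz Z w) (insert w S) = he P Z S + gg P Z D q S := he_new hw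
    have gS := gg_ge hP hq hst S
    have h1 := h.tc
    rw [heS, ebS, Finset.sum_insert hw]
    linarith
  · intro a B hab
    rcases hC' a B hab with h1 | h1
    · obtain ⟨h2, h3, h4, h5⟩ := h.star a B h1
      refine ⟨Finset.mem_insert_of_mem h2, h3.trans (Finset.subset_insert _ _), h4, ?_⟩
      rw [he_old hst]
      · exact h5
      · intro h6
        rcases Finset.mem_insert.1 h6 with h7 | h7
        · exact hw (h7 ▸ h2)
        · exact hw (h3 h7)
    · exact h1

/-- an isolated vertex -/
theorem TW.isolated (h : TW m π H s S C P Z) (hb : Base m π) (hs : ∀ u v, H.Adj u v → s u ≠ s v)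
    (hw : w ∉ S) (hadj : ∀ x ∈ S, ¬ H.Adj w x) :
    TW m π H s (insert w S) (fun v D => C v D ∨ (v = w ∧ D = ∅))
      (pp P Z ∅ fun _ u => m (s w) u) (zz Z w) := by
  have hv : ∀ F : Option U → ℝ, ∑ x, pp P Z ∅ (fun _ u => m (s w) u) x * F (some x.2) =
      ∑ u, m (s w) u * F (some u) := by
    intro F
    refine (sum_ext fun _ u => F (some u)).trans ?_
    rw [← Finset.sum_mul, h.total, one_mul]
  have hst : ∀ ω, P ω ≠ 0 → ∑ u, (fun _ u => m (s w) u) (mz Z ∅ ω) u = 1 := fun _ _ => hb.m1 _
  refine h.extend hs hw (Finset.empty_subset _) (fun x hx => by simp [hadj x hx])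
    (fun _ _ => hb.m0 _ _) hst hv (by simp) (by simp) ?_ ?_
  · have e1 := he_new (P := P) (Z := Z) (D := ∅) (q := fun _ u => m (s w) u) (w := w) (R := ∅)
      (by simp)
    have e2 := he_w (s := s) (w := w) (D := ∅) (P := P) (Z := Z) hv
    rw [show ({w} : Finset V) = insert w ∅ from rfl, e1, he_empty h.total, zero_add] at e2
    rw [e2]
    simp
  · rintro a B (hab | ⟨rfl, rfl⟩)
    · exact Or.inl hab
    · right
      refine ⟨Finset.mem_insert_self _ _, Finset.empty_subset _, by simp, ?_⟩
      have := he_w (s := s) (w := a) (D := ∅) hv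
      rw [show insert a (∅ : Finset V) = {a} from rfl, this]
      simp

theorem TW.pos (h : TW m π H s S C P Z) {v : V} (hv : v ∈ S) {ω : Ω} (h0 : P ω ≠ 0) {x : U}
    (hx : Z ω v = some x) : m (s v) x ≠ 0 := by
  classical
  intro h1
  have h2 := h.vert v hv fun o => if o = some x then 1 else 0
  simp only [Option.some.injEq, mul_ite, mul_one, mul_zero, Finset.sum_ite_eq', Finset.mem_univ,
    if_true, h1] at h2
  have h3 := (Finset.sum_eq_zero_iff_of_nonneg fun ω _ => by
    split_ifs
    · exact h.nonneg ω
    · exact le_rfl).1 h2 ω (mem_univ ω)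
  rw [if_pos hx] at h3
  exact h0 h3

/-- a leaf -/
theorem TW.leaf (h : TW m π H s S C P Z) (hb : Base m π) (hs : ∀ u v, H.Adj u v → s u ≠ s v)
    (hw : w ∉ S) {v : V} (hvS : v ∈ S) (hadj : ∀ x ∈ S, H.Adj w x ↔ x = v) :
    TW m π H s (insert w S) (fun a B => C a B ∨ (a = w ∧ B = {v}) ∨
      (a = v ∧ ∃ D, C v D ∧ B = insert w D)) (pp P Z {v} (ql m π s v)) (zz Z w) := by
  classical
  have hwv : H.Adj w v := (hadj v hvS).2 rfl
  have hne : v ≠ w := fun h' => hw (h' ▸ hvS)
  have hsw : s w = !s v := by
    have := hs _ _ hwv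
    cases h1 : s w <;> cases h2 : s v <;> simp_all
  have hq : ∀ d u, 0 ≤ ql m π s v d u := by
    intro d u
    unfold ql
    cases d v with
    | none => exact le_rfl
    | some x => exact div_nonneg (kp_nonneg hb _ _ _) (hb.m0 _ _)
  have hst : ∀ ω, P ω ≠ 0 → ∑ u, ql m π s v (mz Z {v} ω) u = 1 := by
    intro ω h0
    obtain ⟨x, hx⟩ := Option.isSome_iff_exists.1 (h.inn ω h0 v hvS)
    have h1 := h.pos hvS h0 hx
    unfold ql
    rw [mz_self (Finset.mem_singleton_self v), hx]
    simp only [Option.elim_some]
    rw [← Finset.sum_div, sum_kp hb, div_self h1]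
  have key : ∀ F : Option U → Option U → ℝ,
      ∑ x, pp P Z {v} (ql m π s v) x * F (Z x.1 v) (some x.2) =
        ∑ x, ∑ u, kp π (s v) x u * F (some x) (some u) := by
    intro F
    refine (sum_ext fun ω u => F (Z ω v) (some u)).trans ?_
    have h1 : ∀ ω, P ω * ∑ u, ql m π s v (mz Z {v} ω) u * F (Z ω v) (some u) =
        P ω * (fun o : Option U => ∑ u, (o.elim 0 fun x => kp π (s v) x u / m (s v) x) *
          F o (some u)) (Z ω v) := by
      intro ω
      congr 1
      refine Finset.sum_congr rfl fun u _ => ?_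
      unfold ql
      rw [mz_self (Finset.mem_singleton_self v)]
    rw [Finset.sum_congr rfl fun ω _ => h1 ω]
    refine (h.vert v hvS fun o : Option U => ∑ u, (o.elim 0 fun x => kp π (s v) x u /
      m (s v) x) * F o (some u)).trans ?_
    refine Finset.sum_congr rfl fun x _ => ?_
    simp only [Option.elim_some]
    rw [Finset.mul_sum]
    refine Finset.sum_congr rfl fun u _ => ?_
    by_cases h0 : m (s v) x = 0
    · rw [h0, kp_zero hb h0]
      simp
    · rw [← mul_assoc, mul_div_cancel₀ _ h0]
  have hv : ∀ F : Option U → ℝ, ∑ x, pp P Z {v} (ql m π s v) x * F (some x.2) =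
      ∑ u, m (s w) u * F (some u) := by
    intro F
    rw [key fun _ o => F o, Finset.sum_comm, hsw]
    refine Finset.sum_congr rfl fun u _ => ?_
    rw [← Finset.sum_mul]
    congr 1
    rw [← sum_kp hb]
    exact Finset.sum_congr rfl fun x _ => (kp_symm _ _ _).symm
  have g1 : gg P Z {v} (ql m π s v) {v} = hr π - hm m (s v) := by
    have e1 : ent (pp P Z {v} (ql m π s v)) (fun x => (mz Z {v} x.1, x.2)) = hr π := by
      have e2 : ent (pp P Z {v} (ql m π s v)) (fun x => (mz Z {v} x.1, x.2)) =
          ent (pp P Z {v} (ql m π s v)) (fun x => (Z x.1 v, (some x.2 : Option U))) := by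
        refine ent_fib fun x y => ?_
        simp only [Prod.mk.injEq, mz_eq, Finset.mem_singleton, forall_eq, Option.some.injEq]
      rw [e2]
      have e3 : ent (pb π) (fun p => (((if s v then some p.2 else some p.1) : Option U),
          ((if s v then some p.1 else some p.2) : Option U))) = hr π := by
        rw [← ent_pb hb]
        exact ent_inj (pb π) (fun p => p) (e := fun p => (((if s v then some p.2 else some p.1) :
          Option U), ((if s v then some p.1 else some p.2) : Option U))) fun x y hxy => by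
            cases hsv : s v
            · simp only [hsv, Bool.false_eq_true, if_false, Prod.mk.injEq, Option.some.injEq] at hxy
              exact Prod.ext hxy.1 hxy.2
            · simp only [hsv, if_true, Prod.mk.injEq, Option.some.injEq] at hxy
              exact Prod.ext hxy.2 hxy.1
      rw [← e3]
      refine ent_law fun a => mar_of_sum (fun F => ?_) a
      rw [key fun x y => F (x, y), Fintype.sum_prod_type]
      unfold kp pb
      cases s v
      · simp
      · simp only [if_true]
        rw [Finset.sum_comm]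
    unfold gg
    rw [e1, h.he_one hvS]
  have hG : hm m (s w) - ((({v} : Finset V).card : ℝ)) * ii m π ≤
      gg P Z {v} (ql m π s v) {v} := by
    rw [g1, Finset.card_singleton, hsw]
    unfold ii
    cases s v
    · simp
    · simp
  refine h.extend hs hw (Finset.singleton_subset_iff.2 hvS)
    (fun x hx => by rw [hadj x hx, Finset.mem_singleton]) hq hst hv ?_ ?_ hG ?_
  · intro d hd hsd F
    rw [Finset.mem_singleton] at hd
    subst hd
    rw [key F]
    unfold kp
    simp [hsd]
  · intro d hd hsd F
    rw [Finset.mem_singleton] at hd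
    subst hd
    rw [key fun x y => F y x, Finset.sum_comm]
    unfold kp
    simp [hsd]
  · rintro a B (hab | ⟨rfl, rfl⟩ | ⟨rfl, D, hCD, rfl⟩)
    · exact Or.inl hab
    · right
      refine ⟨Finset.mem_insert_self _ _, ?_, ?_, ?_⟩
      · exact Finset.singleton_subset_iff.2 (Finset.mem_insert_of_mem hvS)
      · intro d hd
        rw [Finset.mem_singleton] at hd
        rw [hd]
        exact hwv
      · rw [he_new (by
          rw [Finset.mem_singleton]
          exact fun h' => hne h'.symm), h.he_one hvS, g1, Finset.card_singleton]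
        push_cast
        linarith
    · right
      obtain ⟨_, h3, h4, h5⟩ := h.star a D hCD
      have hwD : w ∉ D := fun h' => hw (h3 h')
      refine ⟨Finset.mem_insert_of_mem hvS, Finset.insert_subset_insert _ h3, ?_, ?_⟩
      · intro d hd
        rcases Finset.mem_insert.1 hd with rfl | hd
        · exact hwv.symm
        · exact h4 d hd
      · have hw2 : w ∉ insert a D := by
          rw [Finset.mem_insert]
          exact fun h' => h'.elim (fun h'' => hne h''.symm) hwD
        rw [Finset.insert_comm, he_new hw2, Finset.card_insert_of_notMem hwD]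
        have h6 := gg_ge h.nonneg hq hst (insert a D)
        rw [g1] at h6
        push_cast
        linarith

theorem TW.qc_none (h : TW m π H s S C P Z) {v : V} (hvS : v ∈ S) (d : V → Option U) :
    ker P (mz Z D) (fun ω => Z ω v) d none = 0 := by
  classical
  unfold ker
  have : mar P (fun ω => (mz Z D ω, Z ω v)) (d, none) = 0 := by
    unfold mar
    refine Finset.sum_eq_zero fun ω _ => ?_
    by_cases h0 : P ω = 0
    · simp [h0]
    rw [if_neg]
    intro h'
    have h1 := h.inn ω h0 v hvS
    rw [(Prod.mk.inj h').2] at h1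
    simp at h1
  rw [this, zero_div]

/-- the law of a copy -/
theorem TW.sum_qc (h : TW m π H s S C P Z) {v : V} (hvS : v ∈ S)
    (F : (V → Option U) → Option U → ℝ) :
    ∑ x, pp P Z D (qc P Z D v) x * F (mz Z D x.1) (some x.2) =
      ∑ ω, P ω * F (mz Z D ω) (Z ω v) := by
  refine (sum_ext fun ω u => F (mz Z D ω) (some u)).trans ?_
  have h1 := sum_cpy_pair h.nonneg (fun _ : Unit => mz Z D) (fun ω => Z ω v) () F
  have h2 := sum_cpy_one h.nonneg (fun _ : Unit => mz Z D) (fun ω => Z ω v) ()
    fun ω o => F (mz Z D ω) o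
  rw [h2] at h1
  rw [← h1]
  refine Finset.sum_congr rfl fun ω _ => ?_
  rw [Fintype.sum_option, h.qc_none hvS, Finset.mul_sum]
  simp only [mul_zero, zero_mul, zero_add]
  refine Finset.sum_congr rfl fun u _ => ?_
  unfold qc
  ring

/-- a copy of `v` with neighbourhood `D` -/
theorem TW.copy (h : TW m π H s S C P Z) (hb : Base m π) (hs : ∀ u v, H.Adj u v → s u ≠ s v)
    (hw : w ∉ S) {v : V} {D₀ : Finset V} (hC : C v D₀) (hD : D ⊆ D₀) (hne : D.Nonempty)
    (hadj : ∀ x ∈ S, H.Adj w x ↔ x ∈ D) :
    TW m π H s (insert w S) (fun a B => C a B ∨ (a = w ∧ B = D) ∨ (a ∈ D ∧ B = {w}))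
      (pp P Z D (qc P Z D v)) (zz Z w) := by
  classical
  obtain ⟨hvS, hD₀S, hvadj, hstar⟩ := h.star v D₀ hC
  have hDS : D ⊆ S := hD.trans hD₀S
  have hvadj' : ∀ d ∈ D, H.Adj v d := fun d hd => hvadj d (hD hd)
  have hwadj : ∀ d ∈ D, H.Adj w d := fun d hd => (hadj d (hDS hd)).2 hd
  have hDb : ∀ d ∈ D, s d = !s v := by
    intro d hd
    have := hs _ _ (hvadj' d hd)
    cases h1 : s v <;> cases h2 : s d <;> simp_all
  have hsw : s w = s v := by
    obtain ⟨d, hd⟩ := hne
    have h0 := hDb d hd
    have := hs _ _ (hwadj d hd)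
    rw [h0] at this
    cases h1 : s v <;> cases h2 : s w <;> simp_all
  have hq : ∀ d u, 0 ≤ qc P Z D v d u := fun d u => ker_nonneg h.nonneg _ _ _ _
  have hst : ∀ ω, P ω ≠ 0 → ∑ u, qc P Z D v (mz Z D ω) u = 1 := by
    intro ω h0
    rw [← sum_ker (mz Z D) (fun ω => Z ω v) (mar_ne_zero h.nonneg (mz Z D) h0),
      Fintype.sum_option, h.qc_none hvS, zero_add]
    rfl
  have hv : ∀ F : Option U → ℝ, ∑ x, pp P Z D (qc P Z D v) x * F (some x.2) =
      ∑ u, m (s w) u * F (some u) := by
    intro F
    rw [h.sum_qc hvS fun _ o => F o, h.vert v hvS F, hsw]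
  have hg : ∀ Q ⊆ D, gg P Z D (qc P Z D v) Q = he P Z (insert v Q) - he P Z Q := by
    intro Q hQ
    unfold gg
    congr 1
    have e1 : ent (pp P Z D (qc P Z D v)) (fun x => (mz Z Q x.1, x.2)) =
        ent (pp P Z D (qc P Z D v)) (fun x => (rz Q (mz Z D x.1), (some x.2 : Option U))) := by
      refine ent_fib fun x y => ?_
      rw [rz_mz hQ, rz_mz hQ]
      simp only [Prod.mk.injEq, Option.some.injEq]
    have e2 : ent P (fun ω => (rz Q (mz Z D ω), Z ω v)) = he P Z (insert v Q) := by
      unfold he
      refine ent_fib fun ω ω' => ?_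
      rw [rz_mz hQ, rz_mz hQ, Prod.mk.injEq, mz_eq, mz_eq]
      simp only [Finset.mem_insert]
      constructor
      · rintro ⟨h1, h2⟩ x (rfl | hx)
        · exact h2
        · exact h1 x hx
      · exact fun h1 => ⟨fun x hx => h1 x (Or.inr hx), h1 v (Or.inl rfl)⟩
    rw [e1, ← e2]
    exact ent_law fun a => mar_of_sum (fun F => h.sum_qc hvS fun c o => F (rz Q c, o)) a
  have hstarD : hm m (s v) + (D.card : ℝ) * (hr π - hm m (s v)) ≤ he P Z (insert v D) := by
    have h1 := h.star_le hb hs hvS hD hD₀S hvadj
    linarith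
  have hG : hm m (s w) - (D.card : ℝ) * ii m π ≤ gg P Z D (qc P Z D v) D := by
    rw [hg D (Finset.Subset.refl _), hsw]
    have h2 := h.he_le (Finset.empty_subset D) hDS hDb
    rw [he_empty h.total, Finset.card_empty] at h2
    have h3 : ii m π = hm m (s v) + hm m (!s v) - hr π := by
      unfold ii
      cases s v
      · simp
      · simp
        ring
    rw [h3]
    push_cast at h2
    nlinarith
  refine h.extend hs hw hDS hadj hq hst hv ?_ ?_ hG ?_
  · intro d hd hsd F
    have h1 := h.sum_qc (D := D) hvS fun c o => F (c d) o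
    simp only [mz_self hd] at h1
    rw [h1]
    exact h.edge d (hDS hd) v hvS (hvadj' d hd).symm hsd F
  · intro d hd hsd F
    have h1 := h.sum_qc (D := D) hvS fun c o => F o (c d)
    simp only [mz_self hd] at h1
    rw [h1]
    have hsv : s v = false := by
      have := hDb d hd
      rw [hsd] at this
      cases h2 : s v
      · rfl
      · rw [h2] at this
        simp at this
    exact h.edge v hvS d (hDS hd) (hvadj' d hd) hsv F
  · rintro a B (hab | ⟨rfl, rfl⟩ | ⟨haD, rfl⟩)
    · exact Or.inl hab
    · right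
      refine ⟨Finset.mem_insert_self _ _, hDS.trans (Finset.subset_insert _ _), hwadj, ?_⟩
      rw [he_new fun h' => hw (hDS h'), hg _ (Finset.Subset.refl _), hsw]
      linarith
    · right
      refine ⟨Finset.mem_insert_of_mem (hDS haD),
        Finset.singleton_subset_iff.2 (Finset.mem_insert_self _ _), ?_, ?_⟩
      · intro d hd
        rw [Finset.mem_singleton] at hd
        rw [hd]
        exact (hwadj a haD).symm
      · have hwa : w ∉ ({a} : Finset V) := by
          rw [Finset.mem_singleton]
          rintro rfl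
          exact hw (hDS haD)
        have e1 : insert a ({w} : Finset V) = insert w {a} := Finset.pair_comm _ _
        have e2 : he P Z (insert v {a}) = hr π := h.he_two hb hs hvS (hDS haD) (hvadj' a haD)
        rw [e1, he_new hwa, hg _ (Finset.singleton_subset_iff.2 haD), e2, Finset.card_singleton]
        push_cast
        linarith

end Vale.Agent.P050.Tmpl
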