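import Vale.Agent.P050.Tmpl.Weak
import Vale.Agent.P050.Tmpl.Main

/-!
From laws to the two-sided Sidorenko inequality; extensions by copies.
-/

set_option linter.unusedSectionVars false

namespace Vale.Agent.P050.Tmpl

open Finset Vale.Agent.P050.Lev Vale.Agent.P050.Cart Vale.Agent.P050.Join

variable {V U : Type} [Fintype V] [DecidableEq V] [Fintype U]

theorem StarExt.exists_law {m : Bool → U → ℝ} {π : U → U → ℝ} {H : SimpleGraph V}
    {s : V → Bool} {S₀ S : Finset V} {C₀ C : V → Finset V → Prop} (h : StarExt H S₀ C₀ S C)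
    (hb : Base m π) (hs : ∀ u v, H.Adj u v → s u ≠ s v)
    (h₀ : ∃ (Ω : Type) (_ : Fintype Ω) (P : Ω → ℝ) (Z : Ω → V → Option U),
      TW m π H s S₀ C₀ P Z) :
    ∃ (Ω : Type) (_ : Fintype Ω) (P : Ω → ℝ) (Z : Ω → V → Option U), TW m π H s S C P Z := by
  induction h with
  | base => exact h₀
  | isolated w _ hw hadj ih =>
    obtain ⟨Ω, i, P, Z, h⟩ := ih
    exact ⟨Ω × U, inferInstance, _, _, h.isolated hb hs hw hadj⟩
  | leaf w v _ hw hv hadj ih =>
    obtain ⟨Ω, i, P, Z, h⟩ := ih
    exact ⟨Ω × U, inferInstance, _, _, h.leaf hb hs hw hv hadj⟩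
  | copy w v D₀ D _ hw hC hD hne hadj ih =>
    obtain ⟨Ω, i, P, Z, h⟩ := ih
    exact ⟨Ω × U, inferInstance, _, _, h.copy hb hs hw hC hD hne hadj⟩

theorem card_sideEdges_eb (H : SimpleGraph V) (s : V → Bool) :
    (sideEdges H s).card = eb H s univ := by
  classical
  unfold sideEdges eb
  congr 1
  ext e
  simp

theorem TW.sidLaw {Ω : Type} [Fintype Ω] {m : Bool → U → ℝ} {π : U → U → ℝ} {H : SimpleGraph V}
    {s : V → Bool} {C : V → Finset V → Prop} {P : Ω → ℝ} {Z : Ω → V → Option U}
    (h : TW m π H s univ C P Z) (hb : Base m π) :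
    ∃ ν : (V → U) → ℝ, SidLaw (sideEdges H s) s m π ν := by
  classical
  have hU : Nonempty U := by
    by_contra h
    rw [not_nonempty_iff] at h
    have := hb.m1 false
    rw [Finset.univ_eq_empty, Finset.sum_empty] at this
    exact zero_ne_one this
  obtain ⟨u0⟩ := hU
  let g : Ω → V → U := fun ω v => (Z ω v).getD u0
  have hsum : ∀ F : (V → U) → ℝ, ∑ z, mar P g z * F z = ∑ ω, P ω * F (g ω) := sum_mar P g
  have hvert : ∀ v : V, ∀ f : U → ℝ, ∑ z, mar P g z * f (z v) = ∑ x, m (s v) x * f x := by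
    intro v f
    rw [hsum fun z => f (z v)]
    exact h.vert v (mem_univ _) fun o => f (o.getD u0)
  refine ⟨mar P g, mar_nonneg h.nonneg _, ?_, hvert, ?_, ?_⟩
  · rw [mar_total]
    exact h.total
  · rintro ⟨a, b⟩ he f
    unfold sideEdges at he
    rw [Finset.mem_filter] at he
    obtain ⟨_, hadj, ha, _⟩ := he
    rw [hsum fun z => f (z a) (z b)]
    exact h.edge a (mem_univ _) b (mem_univ _) hadj ha fun o o' => f (o.getD u0) (o'.getD u0)
  · rw [tc_eq hvert, inf_eq hb, ent_mar, card_sideEdges_eb]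
    have h1 : he P Z univ ≤ ent P (fun ω => g ω) := by
      have e1 : he P Z univ = ent P (fun ω => (fun v => some (g ω v) : V → Option U)) := by
        unfold he
        refine ent_ae fun ω h0 => ?_
        funext v
        unfold mz
        rw [if_pos (mem_univ v)]
        obtain ⟨y, hy⟩ := Option.isSome_iff_exists.1 (h.inn ω h0 v (mem_univ v))
        simp only [g, hy, Option.getD_some]
      rw [e1]
      exact ent_comp_le h.nonneg g fun z v => some (z v)
    have h2 := h.tc
    linarith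

end Vale.Agent.P050.Tmpl
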