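import Vale.Agent.P050.Tmpl.WeakEnd

/-!
The law of a relative tensor product, with its stars.
-/

set_option linter.unusedSectionVars false

namespace Vale.Agent.P050.Tmpl

open Finset Vale.Agent.P050.Lev Vale.Agent.P050.Cart Vale.Agent.P050.Join

section

variable {V VG : Type} [Fintype V] [DecidableEq V] [Fintype VG] [DecidableEq VG]
  {G : SimpleGraph VG} {t : VG → Bool} {H : SimpleGraph V} {s : V → Bool}
  {C : V → Finset V → Prop}

/-- the variables of the law -/
def zr (t : VG → Bool) (s : V → Bool) (K : Finset V) {U : Type}
    (x : (V → Option U) × (VG → (V → Option U))) : RV t s K → Option U :=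
  Sum.elim (fun v => x.1 v) (fun p => x.2 p.1.1 p.1.2)

theorem rel_law {U : Type} [Fintype U] {m : Bool → U → ℝ} {π : U → U → ℝ}
    (hG : KSid (sideEdges G t) t)
    (hn : 1 ≤ (univ.filter fun p => t p = false).card)
    (hk : 1 ≤ (univ.filter fun p => t p = true).card)
    (hne : (univ.filter fun p => t p = false).card ≤ (sideEdges G t).card)
    (hke : (univ.filter fun p => t p = true).card ≤ (sideEdges G t).card)
    (htG : ∀ p q, G.Adj p q → t p ≠ t q)
    (hH : StarGrown H univ C) (hs : ∀ u v, H.Adj u v → s u ≠ s v) (K : Finset V)
    (hb : Base m π) :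
    ∃ (Ω : Type) (_ : Fintype Ω) (P : Ω → ℝ) (Z : Ω → RV t s K → Option U),
      TW m π (relTensor G t H s K) (relSide t s K) univ (LiftStar G t s K C) P Z := by
  classical
  obtain ⟨Ω, _, P, Z, hT⟩ := hH.exists_law hb hs
  have hP := hT.nonneg
  set fn : Ω → (V → Option U) × (V → Option U) × (V → Option U) :=
    fun ω => (mz Z K ω, mz Z (tz s K false) ω, mz Z (tz s K true) ω) with hfn
  set L := mar P fn with hLdef
  have hL : ∀ ω, 0 ≤ L ω := mar_nonneg hP _
  have hL1 : ∑ ω, L ω = 1 := by rw [hLdef, mar_total, hT.total]
  obtain ⟨μ, hμ⟩ := exists_mu hL hG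
  set Λ := lam L μ with hΛ
  have hΛ0 : ∀ x, 0 ≤ Λ x := lam_nonneg hL hμ
  have hLP : ∀ F : (V → Option U) × (V → Option U) × (V → Option U) → ℝ,
      ∑ ω, L ω * F ω = ∑ ω, P ω * F (fn ω) := sum_mar P fn
  have q1 : ∀ F : (V → Option U) → ℝ, ∑ x, Λ x * F x.1 = ∑ ω, P ω * F (mz Z K ω) := by
    intro F
    rw [hΛ, sum_lam hL hμ F, hLP fun ω => F ω.1]
  have q2 : ∀ (p : VG) (F : (V → Option U) → (V → Option U) → ℝ),
      ∑ x, Λ x * F x.1 (x.2 p) = ∑ ω, P ω * F (mz Z K ω) (mz Z (tz s K (t p)) ω) := by
    intro p F
    rw [hΛ, sum_lam_vertex hL hμ p F, hLP fun ω => F ω.1 (if t p then ω.2.2 else ω.2.1)]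
    refine Finset.sum_congr rfl fun ω _ => ?_
    cases t p <;> simp [hfn]
  have q3 : ∀ e ∈ sideEdges G t, ∀ F : (V → Option U) → (V → Option U) → (V → Option U) → ℝ,
      ∑ x, Λ x * F x.1 (x.2 e.1) (x.2 e.2) =
        ∑ ω, P ω * F (mz Z K ω) (mz Z (tz s K false) ω) (mz Z (tz s K true) ω) := by
    intro e he F
    rw [hΛ, sum_lam_edge hL hμ he F, hLP fun ω => F ω.1 ω.2.1 ω.2.2]
  have htz : ∀ p : {p : VG × V // p.2 ∉ K ∧ t p.1 = s p.2}, p.1.2 ∈ tz s K (t p.1.1) := fun p =>
    mem_tz.2 ⟨p.2.1, p.2.2.symm⟩
  have a1 : ∀ x, Λ x ≠ 0 → ∀ v, (x.1 v).isSome = decide (v ∈ K) := by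
    intro x hx v
    by_contra h
    have h0 : (if ¬ (x.1 v).isSome = decide (v ∈ K) then (1 : ℝ) else 0) = 0 := by
      refine null_event hΛ0 (F := fun x => if ¬ (x.1 v).isSome = decide (v ∈ K) then 1 else 0)
        (fun x => ite_nonneg) ?_ hx
      refine (q1 fun c => if ¬ (c v).isSome = decide (v ∈ K) then 1 else 0).trans ?_
      refine Finset.sum_eq_zero fun ω _ => mul_eq_zero_of_right _ (if_neg ?_)
      rw [not_not]
      by_cases hv : v ∈ K
      · rw [mz_self hv, hT.inn ω v (mem_univ v)]
        simp [hv]
      · simp [mz, hv]
    rw [if_pos h] at h0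
    exact one_ne_zero h0
  have a2 : ∀ x, Λ x ≠ 0 → ∀ p v, (x.2 p v).isSome = decide (v ∉ K ∧ t p = s v) := by
    intro x hx p v
    by_contra h
    have h0 : (if ¬ (x.2 p v).isSome = decide (v ∉ K ∧ t p = s v) then (1 : ℝ) else 0) = 0 := by
      refine null_event hΛ0
        (F := fun x => if ¬ (x.2 p v).isSome = decide (v ∉ K ∧ t p = s v) then 1 else 0)
        (fun x => ite_nonneg) ?_ hx
      refine (q2 p fun _ c => if ¬ (c v).isSome = decide (v ∉ K ∧ t p = s v) then 1
        else 0).trans ?_
      refine Finset.sum_eq_zero fun ω _ => mul_eq_zero_of_right _ (if_neg ?_)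
      rw [not_not]
      by_cases hv : v ∈ tz s K (t p)
      · rw [mz_self hv, hT.inn ω v (mem_univ v)]
        rw [mem_tz] at hv
        simp [hv.1, hv.2]
      · have hv' : ¬ (v ∉ K ∧ t p = s v) := fun h' => hv (mem_tz.2 ⟨h'.1, h'.2.symm⟩)
        unfold mz
        rw [if_neg hv, decide_eq_false hv']
        rfl
    rw [if_pos h] at h0
    exact one_ne_zero h0

  have hmem : ∀ p q, G.Adj p q → t p = false → (p, q) ∈ sideEdges G t := by
    intro p q hpq hp
    have hq : t q = true := by
      have := htG p q hpq
      rw [hp] at this
      cases h : t q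
      · exact absurd h.symm this
      · rfl
    unfold sideEdges
    rw [Finset.mem_filter]
    exact ⟨mem_univ _, hpq, hp, hq⟩
  refine ⟨_, inferInstance, Λ, zr t s K, hΛ0, lam_total hL hμ hL1, fun _ v hv => absurd (mem_univ v) hv,
    ?_, ?_, ?_, ?_, ?_⟩
  · intro x hx w _
    rcases w with v | p
    · change (x.1 v).isSome = true
      rw [a1 x hx v]
      simp
    · change (x.2 p.1.1 p.1.2).isSome = true
      rw [a2 x hx]
      simp [p.2.1, p.2.2]
  · intro w _ F
    rcases w with v | p
    · refine (q1 fun c => F (c v)).trans ?_
      refine Eq.trans (Finset.sum_congr rfl fun ω _ => ?_) (hT.vert v (mem_univ _) F)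
      rw [mz_self v.2]
    · refine (q2 p.1.1 fun _ c => F (c p.1.2)).trans ?_
      refine Eq.trans (Finset.sum_congr rfl fun ω _ => ?_) (hT.vert p.1.2 (mem_univ _) F)
      rw [mz_self (htz p)]
  · intro a _ b _ hadj ha F
    rcases a with u | p <;> rcases b with v | q
    · refine (q1 fun c => F (c u) (c v)).trans ?_
      have h1 := hT.edge u (mem_univ _) v (mem_univ _) hadj ha F
      refine Eq.trans (Finset.sum_congr rfl fun ω _ => ?_) h1
      rw [mz_self u.2, mz_self v.2]
    · refine (q2 q.1.1 fun c d => F (c u) (d q.1.2)).trans ?_
      have h1 := hT.edge u (mem_univ _) q.1.2 (mem_univ _) hadj ha F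
      refine Eq.trans (Finset.sum_congr rfl fun ω _ => ?_) h1
      rw [mz_self u.2, mz_self (htz q)]
    · refine (q2 p.1.1 fun c d => F (d p.1.2) (c v)).trans ?_
      have h1 := hT.edge p.1.2 (mem_univ _) v (mem_univ _) hadj ha F
      refine Eq.trans (Finset.sum_congr rfl fun ω _ => ?_) h1
      rw [mz_self v.2, mz_self (htz p)]
    · have ha' : t p.1.1 = false := p.2.2.trans ha
      have hpq := hmem _ _ hadj.1 ha'
      have hb2 : t q.1.1 = true := by
        unfold sideEdges at hpq
        exact (Finset.mem_filter.1 hpq).2.2.2
      refine (q3 _ hpq fun _ c d => F (c p.1.2) (d q.1.2)).trans ?_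
      have h1 := hT.edge p.1.2 (mem_univ _) q.1.2 (mem_univ _) hadj.2 ha F
      have hp := htz p
      have hq := htz q
      rw [ha'] at hp
      rw [hb2] at hq
      refine Eq.trans (Finset.sum_congr rfl fun ω _ => ?_) h1
      rw [mz_self hp, mz_self hq]
  · let dec : (RV t s K → Option U) → (V → Option U) × (VG → (V → Option U)) := fun z =>
      (fun v => if h : v ∈ K then z (Sum.inl ⟨v, h⟩) else none,
        fun p v => if h : v ∉ K ∧ t p = s v then z (Sum.inr ⟨(p, v), h⟩) else none)
    have a3 : ∀ x, Λ x ≠ 0 → x = dec (mz (zr t s K) univ x) := by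
      intro x hx
      refine Prod.ext ?_ ?_
      · funext v
        have h1 := a1 x hx v
        by_cases hv : v ∈ K
        · simp [dec, hv, mz, zr]
        · rw [decide_eq_false hv] at h1
          simp only [dec, hv, dif_neg, not_false_eq_true]
          simpa using h1
      · funext p v
        have h1 := a2 x hx p v
        by_cases hv : v ∉ K ∧ t p = s v
        · simp only [dec, hv, not_false_eq_true, and_self, dif_pos, mz, mem_univ, if_true, zr,
            Sum.elim_inr]
        · rw [decide_eq_false hv] at h1
          simp only [dec, hv, dif_neg, not_false_eq_true]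
          simpa using h1
    have hent : ent Λ (fun x => x) ≤ he Λ (zr t s K) univ := by
      unfold he
      refine (ent_ae a3).trans_le ?_
      exact ent_comp_le hΛ0 (mz (zr t s K) univ) dec
    have key := ent_lam hL hμ
    have r1 : ent L (fun ω => ω.1) = he P Z K := ent_mar P fn _
    have r2 : ∀ b : Bool, ent L (fun ω => (ω.1, if b then ω.2.2 else ω.2.1)) =
        he P Z (K ∪ sd s b univ) := by
      intro b
      rw [hLdef, ent_mar P fn]
      unfold he
      refine ent_fib fun ω ω' => ?_
      have h1 : ∀ ω, (if b = true then (fn ω).2.2 else (fn ω).2.1) = mz Z (tz s K b) ω := by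
        intro ω
        cases b <;> simp [hfn]
      rw [h1, h1, Prod.mk.injEq, hfn, mz_eq, mz_eq, mz_eq]
      simp only [mem_tz, Finset.mem_union, mem_sd, Finset.mem_univ, true_and]
      constructor
      · rintro ⟨h2, h3⟩ v hv
        by_cases hvK : v ∈ K
        · exact h2 v hvK
        · exact h3 v ⟨hvK, hv.resolve_left hvK⟩
      · exact fun h2 => ⟨fun v hv => h2 v (Or.inl hv), fun v hv => h2 v (Or.inr hv.2)⟩
    have r3 : ent L (fun ω => (ω.1, ω.2.1)) = he P Z (K ∪ sd s false univ) := by
      have := r2 false
      simpa using this
    have r4 : ent L (fun ω => (ω.1, ω.2.2)) = he P Z (K ∪ sd s true univ) := by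
      have := r2 true
      simpa using this
    have r5 : ent L (fun ω => ω) = he P Z univ := by
      rw [hLdef, ent_mar P fn]
      unfold he
      refine ent_fib fun ω ω' => ?_
      rw [hfn]
      simp only [Prod.mk.injEq, mz_eq, mem_tz, Finset.mem_univ, true_imp_iff]
      constructor
      · rintro ⟨h2, h3, h4⟩ v
        by_cases hvK : v ∈ K
        · exact h2 v hvK
        · cases hsv : s v
          · exact h3 v ⟨hvK, hsv⟩
          · exact h4 v ⟨hvK, hsv⟩
      · exact fun h2 => ⟨fun v _ => h2 v, fun v _ => h2 v, fun v _ => h2 v⟩
    rw [sum_side t fun b => ent L (fun ω => (ω.1, if b then ω.2.2 else ω.2.1)) -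
      ent L (fun ω => ω.1)] at key
    simp only [Bool.false_eq_true, if_false, if_true] at key
    rw [r1, r3, r4, r5] at key
    have b0 := hT.low ∅ (Finset.empty_subset _)
    have b1 := hT.low K (Finset.subset_univ _)
    have b2 := hT.low (K ∪ sd s true univ) (Finset.subset_univ _)
    have b3 := hT.low (K ∪ sd s false univ) (Finset.subset_univ _)
    have b4 := hT.mid K (Finset.subset_univ _)
    rw [he_empty hT.total, eb_empty, Finset.sum_empty] at b0
    rw [eb_univ (K := K), sum_univ_tz (s := s) K] at b0 b1 b2 b3
    rw [eb_K] at b1
    rw [eb_t, sum_union_tz] at b2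
    rw [eb_f, sum_union_tz] at b3
    rw [eb_c] at b4
    push_cast at b0 b1 b2 b3 b4
    have key2 := combine' hn hk hne hke
      (a := he P Z univ) (b := he P Z K) (c := he P Z (K ∪ sd s false univ))
      (d := he P Z (K ∪ sd s true univ)) (I := ii m π) (sK := ∑ v ∈ K, hm m (s v))
      (sX := ∑ v ∈ tz s K false, hm m (s v)) (sY := ∑ v ∈ tz s K true, hm m (s v))
      (eK := (ec H s K true true : ℝ)) (eX := (ec H s K false true : ℝ))
      (eY := (ec H s K true false : ℝ)) (eZ := (ec H s K false false : ℝ))
      (by linear_combination b0) (by linear_combination b1) (by linear_combination b2)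
      (by linear_combination b3) b4
    rw [← card_sideEdges_eb, card_rel, sum_rel_hm K (hm m)]
    push_cast
    linarith
  · -- stars
    rintro a B ⟨p', q', hpq', v, D, hvD, hav, hB⟩
    -- orient the edge
    obtain ⟨p, q, hpq, hp, hav, hB⟩ : ∃ p q, G.Adj p q ∧ t p = false ∧ Lift p q v a ∧
        ∀ b, b ∈ B ↔ ∃ w ∈ D, Lift p q w b := by
      have hsw : ∀ (w : V) (b : RV t s K), Lift p' q' w b ↔ Lift q' p' w b := by
        rintro w (u | x)
        · exact Iff.rfl
        · unfold Lift
          exact and_congr_right fun _ => Or.comm
      cases h1 : t p'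
      · exact ⟨p', q', hpq', h1, hav, hB⟩
      · refine ⟨q', p', hpq'.symm, ?_, (hsw _ _).1 hav, fun b => (hB b).trans
          ⟨fun ⟨w, h2, h3⟩ => ⟨w, h2, (hsw _ _).1 h3⟩, fun ⟨w, h2, h3⟩ => ⟨w, h2, (hsw _ _).2 h3⟩⟩⟩
        have := htG p' q' hpq'
        rw [h1] at this
        cases h2 : t q'
        · rfl
        · exact absurd h2.symm this
    have hmem' := hmem p q hpq hp
    have hq : t q = true := by
      unfold sideEdges at hmem'
      exact (Finset.mem_filter.1 hmem').2.2.2
    obtain ⟨_, _, hvadj, hstar⟩ := hT.star v D hvD
    -- the lift of a vertex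
    let θ : V → RV t s K := fun w => if h : w ∈ K then Sum.inl ⟨w, h⟩ else
      if h' : s w = false then Sum.inr ⟨(p, w), h, hp.trans h'.symm⟩ else
        Sum.inr ⟨(q, w), h, hq.trans (by
          cases h'' : s w
          · exact absurd h'' h'
          · rfl)⟩
    have hst : ∀ w, ¬ s w = false → s w = true := by
      intro w h
      cases h' : s w
      · exact absurd h' h
      · rfl
    have θ1 : ∀ w (h : w ∈ K), θ w = Sum.inl ⟨w, h⟩ := fun w h => dif_pos h
    have θ2 : ∀ w (h : w ∉ K) (h' : s w = false), θ w = Sum.inr ⟨(p, w), h, hp.trans h'.symm⟩ :=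
      fun w h h' => (dif_neg h).trans (dif_pos h')
    have θ3 : ∀ w (h : w ∉ K) (h' : ¬ s w = false), θ w =
        Sum.inr ⟨(q, w), h, hq.trans (hst w h').symm⟩ :=
      fun w h h' => (dif_neg h).trans (dif_neg h')
    have hθ : ∀ (w : V) (b : RV t s K), Lift p q w b ↔ b = θ w := by
      intro w b
      by_cases h : w ∈ K
      · rw [θ1 w h]
        rcases b with u | x
        · unfold Lift
          constructor
          · intro h2
            exact congrArg Sum.inl (Subtype.ext h2)
          · intro h2
            exact congrArg Subtype.val (Sum.inl.inj h2)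
        · unfold Lift
          constructor
          · intro h2
            exact absurd (h2.1 ▸ h) x.2.1
          · intro h2
            exact absurd h2 (by simp)
      · by_cases h' : s w = false
        · rw [θ2 w h h']
          rcases b with u | x
          · unfold Lift
            constructor
            · intro h2
              exact absurd (h2 ▸ u.2) h
            · intro h2
              exact absurd h2 (by simp)
          · unfold Lift
            constructor
            · rintro ⟨h2, h3 | h3⟩
              · exact congrArg Sum.inr (Subtype.ext (Prod.ext h3 h2))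
              · have h4 := x.2.2
                rw [h3, h2, hq, h'] at h4
                exact absurd h4 (by decide)
            · intro h2
              have h3 := congrArg Subtype.val (Sum.inr.inj h2)
              exact ⟨congrArg Prod.snd h3, Or.inl (congrArg Prod.fst h3)⟩
        · have h'' : s w = true := by
            cases h3 : s w
            · exact absurd h3 h'
            · rfl
          rw [θ3 w h h']
          rcases b with u | x
          · unfold Lift
            constructor
            · intro h2
              exact absurd (h2 ▸ u.2) h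
            · intro h2
              exact absurd h2 (by simp)
          · unfold Lift
            constructor
            · rintro ⟨h2, h3 | h3⟩
              · have h4 := x.2.2
                rw [h3, h2, hp, h''] at h4
                exact absurd h4 (by decide)
              · exact congrArg Sum.inr (Subtype.ext (Prod.ext h3 h2))
            · intro h2
              have h3 := congrArg Subtype.val (Sum.inr.inj h2)
              exact ⟨congrArg Prod.snd h3, Or.inr (congrArg Prod.fst h3)⟩
    have hside : ∀ w, relSide t s K (θ w) = s w := by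
      intro w
      by_cases h : w ∈ K
      · rw [θ1 w h]
        rfl
      · by_cases h' : s w = false
        · rw [θ2 w h h']
          rfl
        · rw [θ3 w h h']
          rfl
    have ha : a = θ v := (hθ v a).1 hav
    have hBD : B = D.image θ := by
      ext b
      rw [hB, Finset.mem_image]
      exact ⟨fun ⟨w, h1, h2⟩ => ⟨w, h1, ((hθ w b).1 h2).symm⟩,
        fun ⟨w, h1, h2⟩ => ⟨w, h1, (hθ w b).2 h2.symm⟩⟩
    have hinj : Function.Injective θ := by
      intro w w' h
      have h1 : Lift p q w (θ w) := (hθ w _).2 rfl
      have h2 : Lift p q w' (θ w) := (hθ w' _).2 h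
      revert h1 h2
      rcases θ w with u | x
      · exact fun h1 h2 => h1.symm.trans h2
      · exact fun h1 h2 => h1.1.symm.trans h2.1
    have hadjθ : ∀ w w', H.Adj w w' → (relTensor G t H s K).Adj (θ w) (θ w') := by
      intro w w' hww
      have hss := hs _ _ hww
      by_cases h : w ∈ K <;> by_cases h1 : w' ∈ K
      · rw [θ1 w h, θ1 w' h1]
        exact hww
      · by_cases h' : s w' = false
        · rw [θ1 w h, θ2 w' h1 h']
          exact hww
        · rw [θ1 w h, θ3 w' h1 h']
          exact hww
      · by_cases h' : s w = false
        · rw [θ2 w h h', θ1 w' h1]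
          exact hww
        · rw [θ3 w h h', θ1 w' h1]
          exact hww
      · by_cases h' : s w = false
        · have h2 : ¬ s w' = false := fun h3 => hss (h'.trans h3.symm)
          rw [θ2 w h h', θ3 w' h1 h2]
          exact ⟨hpq, hww⟩
        · have h2 : s w' = false := by
            cases h3 : s w'
            · rfl
            · cases h4 : s w
              · exact absurd h4 h'
              · exact absurd (h4.trans h3.symm) hss
          rw [θ3 w h h', θ2 w' h1 h2]
          exact ⟨hpq.symm, hww⟩
    refine ⟨mem_univ _, Finset.subset_univ _, ?_, ?_⟩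
    · intro d hd
      rw [hBD, Finset.mem_image] at hd
      obtain ⟨w, hw, rfl⟩ := hd
      rw [ha]
      exact hadjθ v w (hvadj w hw)
    · have hcard : B.card = D.card := by rw [hBD, Finset.card_image_of_injective _ hinj]
      have hins : insert a B = (insert v D).image θ := by rw [Finset.image_insert, ha, hBD]
      -- the law of the lifts
      have hlaw : he Λ (zr t s K) ((insert v D).image θ) = he P Z (insert v D) := by
        let φ : (V → Option U) × (V → Option U) × (V → Option U) → V → Option U := fun c w =>
          if w ∈ insert v D then (if w ∈ K then c.1 w else if s w = false then c.2.1 w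
            else c.2.2 w) else none
        have e1 : he Λ (zr t s K) ((insert v D).image θ) =
            ent Λ (fun x => φ (x.1, x.2 p, x.2 q)) := by
          unfold he
          refine ent_fib fun x y => ?_
          rw [mz_eq]
          have hz : ∀ (x : (V → Option U) × (VG → (V → Option U))) (w : V),
              zr t s K x (θ w) = if w ∈ K then x.1 w else if s w = false then x.2 p w
                else x.2 q w := by
            intro x w
            by_cases h : w ∈ K
            · rw [θ1 w h, if_pos h]
              rfl
            · by_cases h' : s w = false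
              · rw [θ2 w h h', if_neg h, if_pos h']
                rfl
              · rw [θ3 w h h', if_neg h, if_neg h']
                rfl
          constructor
          · intro h
            funext w
            simp only [φ]
            by_cases hw : w ∈ insert v D
            · rw [if_pos hw, if_pos hw, ← hz x w, ← hz y w]
              exact h _ (Finset.mem_image_of_mem _ hw)
            · rw [if_neg hw, if_neg hw]
          · intro h b hb
            obtain ⟨w, hw, rfl⟩ := Finset.mem_image.1 hb
            have h1 := congrFun h w
            simp only [φ] at h1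
            rw [if_pos hw, if_pos hw, ← hz x w, ← hz y w] at h1
            exact h1
        have e2 : ent Λ (fun x => φ (x.1, x.2 p, x.2 q)) = ent P (fun ω => φ (fn ω)) :=
          ent_law fun c => mar_of_sum (fun F => q3 _ hmem' fun c d e => F (φ (c, d, e))) c
        have e3 : ent P (fun ω => φ (fn ω)) = he P Z (insert v D) := by
          unfold he
          refine ent_fib fun ω ω' => ?_
          rw [mz_eq]
          have hz : ∀ (ω : Ω) (w : V), (if w ∈ K then (fn ω).1 w else if s w = false then
              (fn ω).2.1 w else (fn ω).2.2 w) = Z ω w := by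
            intro ω w
            by_cases h : w ∈ K
            · rw [if_pos h]
              exact mz_self h ω
            · rw [if_neg h]
              by_cases h' : s w = false
              · rw [if_pos h']
                exact mz_self (mem_tz.2 ⟨h, h'⟩) ω
              · rw [if_neg h']
                refine mz_self (mem_tz.2 ⟨h, ?_⟩) ω
                cases h'' : s w
                · exact absurd h'' h'
                · rfl
          constructor
          · intro h w hw
            have h1 := congrFun h w
            simp only [φ] at h1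
            rw [if_pos hw, if_pos hw, hz, hz] at h1
            exact h1
          · intro h
            funext w
            simp only [φ]
            by_cases hw : w ∈ insert v D
            · rw [if_pos hw, if_pos hw, hz, hz]
              exact h w hw
            · rw [if_neg hw, if_neg hw]
        rw [e1, e2, e3]
      rw [hins, hlaw, hcard, ha, hside]
      exact hstar

end

end Vale.Agent.P050.Tmpl
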