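import Vale.Agent.P050.Tmpl.WeakLaw

/-!
Transport of laws along injections.
-/

set_option linter.unusedSectionVars false

namespace Vale.Agent.P050.Tmpl

open Finset Vale.Agent.P050.Lev Vale.Agent.P050.Cart Vale.Agent.P050.Join

section

variable {V V₁ U Ω : Type} [Fintype V] [DecidableEq V] [Fintype V₁] [DecidableEq V₁] [Fintype U]
  [Fintype Ω]

open Classical in
/-- the variables, indexed by the larger set -/
noncomputable def zf (f : V₁ → V) (Z : Ω → V₁ → Option U) (ω : Ω) (v : V) : Option U :=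
  if h : ∃ a, f a = v then Z ω h.choose else none

variable {f : V₁ → V} (hf : Function.Injective f) {Z : Ω → V₁ → Option U}

include hf in
theorem zf_apply (ω : Ω) (a : V₁) : zf f Z ω (f a) = Z ω a := by
  unfold zf
  have h : ∃ b, f b = f a := ⟨a, rfl⟩
  rw [dif_pos h, hf h.choose_spec]

theorem zf_none (ω : Ω) {v : V} (h : ¬ ∃ a, f a = v) : zf f Z ω v = none := by
  unfold zf
  rw [dif_neg h]

include hf in
theorem he_zf (P : Ω → ℝ) (B : Finset V₁) : he P (zf f Z) (B.image f) = he P Z B := by
  unfold he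
  refine ent_fib fun ω ω' => ?_
  rw [mz_eq, mz_eq]
  constructor
  · intro h a ha
    have := h (f a) (Finset.mem_image_of_mem _ ha)
    rwa [zf_apply hf, zf_apply hf] at this
  · intro h v hv
    obtain ⟨a, ha, rfl⟩ := Finset.mem_image.1 hv
    rw [zf_apply hf, zf_apply hf]
    exact h a ha

theorem TW.map {m : Bool → U → ℝ} {π : U → U → ℝ} {H₁ : SimpleGraph V₁} {s₁ : V₁ → Bool}
    {C₁ : V₁ → Finset V₁ → Prop} {P : Ω → ℝ} (h : TW m π H₁ s₁ univ C₁ P Z)
    (hf : Function.Injective f) {H : SimpleGraph V} {s : V → Bool}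
    (hadj : ∀ a b, H.Adj (f a) (f b) ↔ H₁.Adj a b) (hside : ∀ a, s (f a) = s₁ a) :
    TW m π H s (univ.image f) (fun v D => ∃ a B, C₁ a B ∧ v = f a ∧ D = B.image f) P (zf f Z) := by
  classical
  refine ⟨h.nonneg, h.total, ?_, ?_, ?_, ?_, ?_, ?_⟩
  · intro ω v hv
    refine zf_none ω ?_
    rintro ⟨a, rfl⟩
    exact hv (Finset.mem_image_of_mem _ (mem_univ a))
  · intro ω h0 v hv
    obtain ⟨a, _, rfl⟩ := Finset.mem_image.1 hv
    rw [zf_apply hf]
    exact h.inn ω h0 a (mem_univ a)
  · intro v hv F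
    obtain ⟨a, _, rfl⟩ := Finset.mem_image.1 hv
    simp only [zf_apply hf]
    rw [hside]
    exact h.vert a (mem_univ a) F
  · intro u hu v hv ha hsu F
    obtain ⟨a, _, rfl⟩ := Finset.mem_image.1 hu
    obtain ⟨b, _, rfl⟩ := Finset.mem_image.1 hv
    simp only [zf_apply hf]
    rw [hside] at hsu
    exact h.edge a (mem_univ a) b (mem_univ b) ((hadj a b).1 ha) hsu F
  · rw [he_zf hf, Finset.sum_image fun a _ b _ hab => hf hab]
    have e1 : eb H s (univ.image f) = eb H₁ s₁ univ := by
      unfold eb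
      symm
      refine Finset.card_nbij (fun e => (f e.1, f e.2)) ?_ ?_ ?_
      · intro e he
        rw [Finset.mem_coe, Finset.mem_filter] at he ⊢
        refine ⟨mem_univ _, ⟨Finset.mem_image_of_mem _ (mem_univ _),
          Finset.mem_image_of_mem _ (mem_univ _)⟩, (hadj _ _).2 he.2.2.1, ?_, ?_⟩
        · change s (f e.1) = false
          rw [hside]
          exact he.2.2.2.1
        · change s (f e.2) = true
          rw [hside]
          exact he.2.2.2.2
      · rintro ⟨a, b⟩ _ ⟨a', b'⟩ _ hab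
        have := Prod.mk.inj hab
        exact Prod.ext (hf this.1) (hf this.2)
      · rintro ⟨u, v⟩ he
        rw [Finset.mem_coe, Finset.mem_filter] at he
        obtain ⟨_, ⟨hu, hv⟩, ha, hsu, hsv⟩ := he
        obtain ⟨a, _, rfl⟩ := Finset.mem_image.1 hu
        obtain ⟨b, _, rfl⟩ := Finset.mem_image.1 hv
        refine ⟨(a, b), ?_, rfl⟩
        rw [Finset.mem_coe, Finset.mem_filter]
        refine ⟨mem_univ _, ⟨mem_univ _, mem_univ _⟩, (hadj _ _).1 ha, ?_, ?_⟩
        · change s₁ a = false
          rw [← hside]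
          exact hsu
        · change s₁ b = true
          rw [← hside]
          exact hsv
    rw [e1]
    simp only [hside]
    exact h.tc
  · rintro v D ⟨a, B, hC, rfl, rfl⟩
    obtain ⟨_, _, h1, h2⟩ := h.star a B hC
    refine ⟨Finset.mem_image_of_mem _ (mem_univ _), Finset.image_subset_image (Finset.subset_univ _),
      ?_, ?_⟩
    · intro d hd
      obtain ⟨b, hb, rfl⟩ := Finset.mem_image.1 hd
      exact (hadj a b).2 (h1 b hb)
    · rw [← Finset.image_insert, he_zf hf, Finset.card_image_of_injective _ hf, hside]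
      exact h2

end

end Vale.Agent.P050.Tmpl
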